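import Vale.Agent.P002.Surface.Basic

/-! Two large subspaces of matrices: their commutators and products fill everything. -/

open Matrix Module

namespace Vale.Agent.P002.Two

open Vale.Agent.P002.Surface (Mat)

variable {r : ℕ}

/-- The trace pairing. -/
noncomputable def pair (r : ℕ) : Mat r →ₗ[ℂ] Dual ℂ (Mat r) where
  toFun Ξ := (Matrix.traceLinearMap (Fin r) ℂ ℂ) ∘ₗ LinearMap.mulLeft ℂ Ξ
  map_add' A B := by ext M : 1; simp [add_mul]
  map_smul' c A := by ext M : 1; simp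

lemma pair_apply (Ξ M : Mat r) : pair r Ξ M = (Ξ * M).trace := rfl

lemma pair_injective : Function.Injective (pair r) := fun A B h =>
  Matrix.ext_iff_trace_mul_right.2 fun M => LinearMap.congr_fun h M

/-- The orthogonal of a space for the trace pairing. -/
noncomputable def perp (W : Submodule ℂ (Mat r)) : Submodule ℂ (Mat r) :=
  W.dualAnnihilator.comap (pair r)

lemma mem_perp {W : Submodule ℂ (Mat r)} {Ξ : Mat r} :
    Ξ ∈ perp W ↔ ∀ M ∈ W, (Ξ * M).trace = 0 := by
  simp [perp, Submodule.mem_dualAnnihilator, pair_apply]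

lemma finrank_perp (W : Submodule ℂ (Mat r)) :
    finrank ℂ (perp W) + finrank ℂ W = r * r := by
  have hM : finrank ℂ (Mat r) = r * r := by simp [Module.finrank_matrix]
  have hd := Subspace.finrank_add_finrank_dualAnnihilator_eq W
  have hs : Function.Surjective (pair r) :=
    (LinearMap.injective_iff_surjective_of_finrank_eq_finrank Subspace.dual_finrank_eq.symm).1
      pair_injective
  have e : (perp W).map (pair r) = W.dualAnnihilator :=
    Submodule.map_comap_eq_of_surjective hs _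
  have := ((Submodule.equivMapOfInjective (pair r) pair_injective (perp W)).finrank_eq)
  rw [e] at this
  omega

lemma finrank_map_ge (f : Mat r →ₗ[ℂ] Mat r) (W : Submodule ℂ (Mat r)) :
    finrank ℂ (LinearMap.range f) + finrank ℂ W ≤ r * r + finrank ℂ (W.map f) := by
  have hM : finrank ℂ (Mat r) = r * r := by simp [Module.finrank_matrix]
  have h1 := LinearMap.finrank_range_add_finrank_ker f
  have h2 := LinearMap.finrank_range_add_finrank_ker (f ∘ₗ W.subtype)
  have h3 : LinearMap.range (f ∘ₗ W.subtype) = W.map f := by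
    rw [LinearMap.range_comp, Submodule.range_subtype]
  have h4 : finrank ℂ (LinearMap.ker (f ∘ₗ W.subtype)) ≤ finrank ℂ (LinearMap.ker f) := by
    refine LinearMap.finrank_le_finrank_of_injective
      (f := W.subtype.restrict (p := LinearMap.ker (f ∘ₗ W.subtype)) (q := LinearMap.ker f)
        fun x hx => by simpa using hx) ?_
    intro x y h
    exact Subtype.ext (Subtype.ext (congrArg (fun z : LinearMap.ker f => (z : Mat r)) h))
  rw [h3] at h2
  omega

/-- A matrix whose vectors are all eigenvectors is scalar. -/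
lemma scalar_of_eigen {Ξ : Mat r} (h : ∀ x : Fin r → ℂ, ∃ c : ℂ, Ξ *ᵥ x = c • x) :
    ∃ c : ℂ, Ξ = c • (1 : Mat r) := by
  rcases Nat.eq_zero_or_pos r with h0 | h0
  · subst h0; exact ⟨0, by ext i; exact i.elim0⟩
  choose c hc using fun i : Fin r => h (Pi.single i 1)
  have hd : ∀ a i : Fin r, Ξ a i = if a = i then c i else 0 := fun a i => by
    simpa [Pi.single_apply] using congrFun (hc i) a
  refine ⟨c ⟨0, h0⟩, ?_⟩
  ext a i
  rw [hd, Matrix.smul_apply, Matrix.one_apply]
  split_ifs with hai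
  · rcases eq_or_ne i ⟨0, h0⟩ with rfl | hne
    · simp
    obtain ⟨d, hd'⟩ := h (Pi.single i 1 + Pi.single ⟨0, h0⟩ 1)
    rw [mulVec_add, hc, hc] at hd'
    have h1 := congrFun hd' i
    have h2 := congrFun hd' ⟨0, h0⟩
    simp [hne, hne.symm] at h1 h2
    simp [h1, h2]
  · simp

/-- `M ↦ ΞM - MΞ`. -/
noncomputable def adL (Ξ : Mat r) : Mat r →ₗ[ℂ] Mat r :=
  LinearMap.mulLeft ℂ Ξ - LinearMap.mulRight ℂ Ξ

/-- A non-scalar matrix has commutant of codimension at least `2r-2`. -/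
lemma finrank_range_ad {Ξ : Mat r} (h : ∀ c : ℂ, Ξ ≠ c • (1 : Mat r)) :
    2 * r - 2 ≤ finrank ℂ (LinearMap.range (adL Ξ)) := by
  obtain ⟨e, he⟩ : ∃ e, ∀ c : ℂ, Ξ *ᵥ e ≠ c • e := by
    by_contra! hn
    obtain ⟨c, hc⟩ := scalar_of_eigen hn
    exact h c hc
  obtain ⟨f, hf⟩ : ∃ f, f = Ξ *ᵥ e := ⟨_, rfl⟩
  -- a functional with w₀(e) = 0, w₀(f) = 1
  obtain ⟨w₀, hw₀e, hw₀f⟩ : ∃ w : Fin r → ℂ, w ⬝ᵥ e = 0 ∧ w ⬝ᵥ f = 1 := by
    have hnot : f ∉ Submodule.span ℂ {e} := fun hm => by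
      obtain ⟨c, hc⟩ := Submodule.mem_span_singleton.1 hm
      exact he c (hf ▸ hc.symm)
    obtain ⟨φ, hφf, hφ⟩ := Submodule.exists_dual_map_eq_bot_of_notMem hnot inferInstance
    have hval : ∀ v, φ v = (fun i => φ (Pi.single i 1)) ⬝ᵥ v := fun v => by
      conv_lhs => rw [← Finset.univ_sum_single v]
      rw [map_sum, dotProduct]
      refine Finset.sum_congr rfl fun i _ => ?_
      rw [show (Pi.single i (v i) : Fin r → ℂ) = v i • Pi.single i 1 by
        simp [← Pi.single_smul'], map_smul, smul_eq_mul, mul_comm]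
    refine ⟨fun i => (φ f)⁻¹ * φ (Pi.single i 1), ?_, ?_⟩
    · have he0 : φ e = 0 := (Submodule.eq_bot_iff _).1 hφ _
        (Submodule.mem_map_of_mem (Submodule.mem_span_singleton_self e))
      rw [show (fun i => (φ f)⁻¹ * φ (Pi.single i 1)) = (φ f)⁻¹ • fun i => φ (Pi.single i 1) from rfl,
        smul_dotProduct, ← hval, he0, smul_zero]
    · rw [show (fun i => (φ f)⁻¹ * φ (Pi.single i 1)) = (φ f)⁻¹ • fun i => φ (Pi.single i 1) from rfl,
        smul_dotProduct, ← hval, smul_eq_mul, inv_mul_cancel₀ hφf]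
  let η : Fin r → ℂ := w₀ ᵥ* Ξ
  let L : (Fin r → ℂ) × (Fin r → ℂ) →ₗ[ℂ] Mat r :=
    { toFun := fun p => vecMulVec p.1 w₀ + vecMulVec e p.2
      map_add' := fun p q => by
        ext i j; simp [vecMulVec_apply]; ring
      map_smul' := fun c p => by
        ext i j; simp [vecMulVec_apply]; ring }
  have hηe : η ⬝ᵥ e = 1 := by rw [← dotProduct_mulVec, ← hf, hw₀f]
  let k0 : (Fin r → ℂ) × (Fin r → ℂ) := (e, -w₀)
  obtain ⟨k1, hk1⟩ : ∃ k1 : (Fin r → ℂ) × (Fin r → ℂ),
      k1 = (f - (w₀ ⬝ᵥ (Ξ *ᵥ f)) • e, η) := ⟨_, rfl⟩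
  have hker : LinearMap.ker (adL Ξ ∘ₗ L) ≤ Submodule.span ℂ {k0, k1} := by
    rintro ⟨x, w⟩ hxw
    set g := Ξ *ᵥ f with hg
    set θ := η ᵥ* Ξ
    have h0 : vecMulVec (Ξ *ᵥ x) w₀ + vecMulVec f w - vecMulVec x η - vecMulVec e (w ᵥ* Ξ) = 0 := by
      have := LinearMap.mem_ker.1 hxw
      simp only [LinearMap.comp_apply, L, adL, LinearMap.coe_mk, AddHom.coe_mk, LinearMap.sub_apply,
        LinearMap.mulLeft_apply, LinearMap.mulRight_apply, mul_add, add_mul, mul_vecMulVec,
        vecMulVec_mul] at this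
      rw [← hf] at this
      rw [← this]; abel
    -- apply to a vector, pair with a covector
    have ev : ∀ v : Fin r → ℂ, (w₀ ⬝ᵥ v) • (Ξ *ᵥ x) + (w ⬝ᵥ v) • f - (η ⬝ᵥ v) • x -
        ((w ᵥ* Ξ) ⬝ᵥ v) • e = 0 := fun v => by
      have := congrArg (fun M => M *ᵥ v) h0
      simp only [add_mulVec, sub_mulVec, vecMulVec_mulVec, zero_mulVec] at this
      simpa using this
    -- at `e`
    have hx : x = (w ⬝ᵥ e) • f - ((w ᵥ* Ξ) ⬝ᵥ e) • e := by
      have := ev e
      rw [hw₀e, hηe, zero_smul, zero_add, one_smul] at this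
      rw [← sub_eq_zero, ← neg_eq_zero, ← this]; abel
    set γ := w ⬝ᵥ e
    set β := (w ᵥ* Ξ) ⬝ᵥ e
    -- covector `w₀`
    have hw : ∀ v, (w ⬝ᵥ v) = (β - γ * (w₀ ⬝ᵥ g)) * (w₀ ⬝ᵥ v) + γ * (η ⬝ᵥ v) := fun v => by
      have h1 := congrArg (fun z => w₀ ⬝ᵥ z) (ev v)
      have hΞx : w₀ ⬝ᵥ (Ξ *ᵥ x) = γ * (w₀ ⬝ᵥ g) - β := by
        rw [hx, mulVec_sub, mulVec_smul, mulVec_smul, ← hf, ← hg, dotProduct_sub, dotProduct_smul,
          dotProduct_smul, hw₀f, smul_eq_mul, smul_eq_mul, mul_one]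
      have hwx : w₀ ⬝ᵥ x = γ := by
        rw [hx, dotProduct_sub, dotProduct_smul, dotProduct_smul, hw₀f, hw₀e]; simp
      simp only [dotProduct_add, dotProduct_sub, dotProduct_smul, dotProduct_zero, hΞx, hwx, hw₀f,
        hw₀e, smul_eq_mul, mul_one, mul_zero, sub_zero] at h1
      linear_combination h1
    have hweq : w = (β - γ * (w₀ ⬝ᵥ g)) • w₀ + γ • η := by
      funext i
      have := hw (Pi.single i 1)
      simpa using this
    refine Submodule.mem_span_pair.2 ⟨-(β - γ * (w₀ ⬝ᵥ g)), γ, ?_⟩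
    rw [hk1]
    refine Prod.ext ?_ ?_
    · show -(β - γ * (w₀ ⬝ᵥ g)) • e + γ • (f - (w₀ ⬝ᵥ g) • e) = x
      rw [hx]; module
    · show -(β - γ * (w₀ ⬝ᵥ g)) • (-w₀) + γ • η = w
      rw [hweq]; module
  have h1 := LinearMap.finrank_range_add_finrank_ker (adL Ξ ∘ₗ L)
  have h2 : finrank ℂ (LinearMap.range (adL Ξ ∘ₗ L)) ≤ finrank ℂ (LinearMap.range (adL Ξ)) :=
    Submodule.finrank_mono (LinearMap.range_comp_le_range _ _)
  have h3 : finrank ℂ (LinearMap.ker (adL Ξ ∘ₗ L)) ≤ 2 := by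
    refine (Submodule.finrank_mono hker).trans ((finrank_span_le_card _).trans ?_)
    simp only [Set.toFinset_insert, Set.toFinset_singleton]
    exact Finset.card_le_two
  simp only [Module.finrank_prod, Module.finrank_fintype_fun_eq_card, Fintype.card_fin] at h1
  omega

/-- The commutators of two large spaces span every traceless matrix. -/
theorem comm_span {U₀ U₁ : Submodule ℂ (Mat r)}
    (h₀ : r * r - r + 2 ≤ finrank ℂ ↥(U₀ ⊔ Submodule.span ℂ {(1 : Mat r)}))
    (h₁ : r * r - r + 1 ≤ finrank ℂ U₁) {Z : Mat r} (hZ : Z.trace = 0) :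
    Z ∈ Submodule.span ℂ {M | ∃ X ∈ U₁, ∃ Y ∈ U₀, M = X * Y - Y * X} := by
  set S := Submodule.span ℂ {M | ∃ X ∈ U₁, ∃ Y ∈ U₀, M = X * Y - Y * X}
  by_contra hZS
  obtain ⟨φ, hφZ, hφS⟩ := Submodule.exists_dual_map_eq_bot_of_notMem hZS inferInstance
  obtain ⟨Ξ, rfl⟩ := (LinearMap.injective_iff_surjective_of_finrank_eq_finrank
    Subspace.dual_finrank_eq.symm).1 (pair_injective (r := r)) φ
  set W := U₀ ⊔ Submodule.span ℂ {(1 : Mat r)}
  have hW : W.map (adL Ξ) ≤ perp U₁ := by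
    rw [Submodule.map_le_iff_le_comap, sup_le_iff, Submodule.span_singleton_le_iff_mem]
    refine ⟨fun Y hY => mem_perp.2 fun X hX => ?_, by simp [adL]⟩
    have h := (Submodule.eq_bot_iff _).1 hφS _
      (Submodule.mem_map_of_mem (Submodule.subset_span ⟨X, hX, Y, hY, rfl⟩))
    rw [pair_apply, mul_sub, trace_sub, sub_eq_zero] at h
    simp only [adL, LinearMap.sub_apply, LinearMap.mulLeft_apply, LinearMap.mulRight_apply, sub_mul,
      trace_sub, sub_eq_zero]
    calc (Ξ * Y * X).trace = (Ξ * (Y * X)).trace := by rw [mul_assoc]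
      _ = (Ξ * (X * Y)).trace := h.symm
      _ = (Y * Ξ * X).trace := by rw [← mul_assoc, trace_mul_cycle]
  have h2 := finrank_map_ge (adL Ξ) W
  have h3 := Submodule.finrank_mono hW
  have h4 := finrank_perp U₁
  obtain ⟨c, rfl⟩ : ∃ c : ℂ, Ξ = c • (1 : Mat r) := by
    by_contra! hn
    have h5 := finrank_range_ad hn
    have h6 : r ≤ r * r := Nat.le_mul_self r
    omega
  exact hφZ (by rw [pair_apply, smul_mul_assoc, one_mul, trace_smul, hZ, smul_zero])

/-- Products of two large spaces span everything. -/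
theorem prod_span (hr : 2 ≤ r) {U₀ U₁ : Submodule ℂ (Mat r)}
    (h₀ : r * r - r + 1 ≤ finrank ℂ U₀) (h₁ : r * r - r + 1 ≤ finrank ℂ U₁)
    (hrank : ∀ x y : Fin r → ℂ, (∀ w ∈ U₁, y ⬝ᵥ (w *ᵥ x) = 0) → x = 0 ∨ y = 0) :
    Submodule.span ℂ {M | ∃ Y ∈ U₀, ∃ X ∈ U₁, M = Y * X} = ⊤ := by
  set S := Submodule.span ℂ {M | ∃ Y ∈ U₀, ∃ X ∈ U₁, M = Y * X}
  by_contra hne
  obtain ⟨M, hMS⟩ : ∃ M, M ∉ S := by
    by_contra! hh
    exact hne (eq_top_iff.2 fun M _ => hh M)
  obtain ⟨φ, hφ0, hφS⟩ := Submodule.exists_dual_map_eq_bot_of_notMem hMS inferInstance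
  obtain ⟨Ξ, rfl⟩ := (LinearMap.injective_iff_surjective_of_finrank_eq_finrank
    Subspace.dual_finrank_eq.symm).1 (pair_injective (r := r)) φ
  have hΞ : Ξ ≠ 0 := fun h => hφ0 (by simp [h])
  set P := LinearMap.mulLeft ℂ Ξ
  have hP : U₀.map P ≤ perp U₁ := by
    rintro _ ⟨Y, hY, rfl⟩
    refine mem_perp.2 fun X hX => ?_
    have h := (Submodule.eq_bot_iff _).1 hφS _
      (Submodule.mem_map_of_mem (Submodule.subset_span ⟨Y, hY, X, hX, rfl⟩))
    rw [pair_apply] at h
    show (Ξ * Y * X).trace = 0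
    rw [mul_assoc]; exact h
  -- the image of left multiplication
  have hlow : ∀ (x : Fin r → ℂ), (∃ v, x = Ξ *ᵥ v) → ∀ y, vecMulVec x y ∈ LinearMap.range P := by
    rintro x ⟨v, rfl⟩ y
    exact ⟨vecMulVec v y, by simp [P, mul_vecMulVec]⟩
  have h2 := finrank_map_ge P U₀
  have h3 := Submodule.finrank_mono hP
  have h4 := finrank_perp U₁
  have h6 : r ≤ r * r := Nat.le_mul_self r
  by_cases hone : ∃ x : Fin r → ℂ, ∀ v, ∃ c : ℂ, Ξ *ᵥ v = c • x
  · -- rank one: some image has rank one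
    obtain ⟨x, hx⟩ := hone
    choose c hc using hx
    have hxr : r ≤ finrank ℂ (LinearMap.range P) := by
      obtain ⟨v, hv⟩ : ∃ v, Ξ *ᵥ v ≠ 0 := by
        by_contra! h
        exact hΞ (Matrix.ext fun i j => by simpa [mulVec_single] using congrFun (h (Pi.single j 1)) i)
      obtain ⟨i, hi⟩ := Function.ne_iff.1 hv
      let emb : (Fin r → ℂ) →ₗ[ℂ] Mat r :=
        { toFun := fun y => vecMulVec (Ξ *ᵥ v) y
          map_add' := fun a b => by ext; simp [vecMulVec_apply]; ring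
          map_smul' := fun a b => by ext; simp [vecMulVec_apply]; ring }
      have hinj : Function.Injective emb := fun a b h => funext fun j => by
        have := congrFun (congrFun h i) j
        exact mul_left_cancel₀ hi this
      have := Submodule.finrank_mono (show LinearMap.range emb ≤ LinearMap.range P by
        rintro _ ⟨y, rfl⟩; exact hlow _ ⟨v, rfl⟩ y)
      rw [LinearMap.finrank_range_of_inj hinj] at this
      simpa using this
    obtain ⟨Y, hY, hPY⟩ : ∃ Y ∈ U₀, Ξ * Y ≠ 0 := by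
      by_contra! h
      have : U₀.map P = ⊥ := (Submodule.eq_bot_iff _).2 (by rintro _ ⟨Y, hY, rfl⟩; exact h Y hY)
      rw [this, finrank_bot] at h2
      omega
    let η : Fin r → ℂ := fun j => c (fun i => Y i j)
    have hY' : Ξ * Y = vecMulVec x η := by
      ext i j
      rw [vecMulVec_apply, mul_comm]
      exact congrFun (hc fun i => Y i j) i
    rcases hrank x η fun w hw => by
      have := mem_perp.1 (hP (Submodule.mem_map_of_mem hY)) w hw
      rw [show P Y = vecMulVec x η from hY', vecMulVec_mul, trace_vecMulVec] at this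
      rw [dotProduct_mulVec, dotProduct_comm]; exact this with h | h <;>
      exact hPY (by rw [hY', h]; ext; simp [vecMulVec_apply])
  · -- two independent columns
    push Not at hone
    obtain ⟨v₁, hv₁⟩ : ∃ v, Ξ *ᵥ v ≠ 0 := by
      by_contra! h
      exact hΞ (Matrix.ext fun i j => by simpa [mulVec_single] using congrFun (h (Pi.single j 1)) i)
    obtain ⟨v₂, hv₂⟩ := hone (Ξ *ᵥ v₁)
    let emb : (Fin r → ℂ) × (Fin r → ℂ) →ₗ[ℂ] Mat r :=
      { toFun := fun p => vecMulVec (Ξ *ᵥ v₁) p.1 + vecMulVec (Ξ *ᵥ v₂) p.2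
        map_add' := fun a b => by ext; simp [vecMulVec_apply]; ring
        map_smul' := fun a b => by ext; simp [vecMulVec_apply]; ring }
    have hinj : Function.Injective emb := by
      refine (injective_iff_map_eq_zero emb).2 fun p hp => ?_
      have h : ∀ j, p.1 j • (Ξ *ᵥ v₁) + p.2 j • (Ξ *ᵥ v₂) = 0 := fun j => funext fun i => by
        have := congrFun (congrFun hp i) j
        simp [emb, vecMulVec_apply] at this
        simp only [Pi.add_apply, Pi.smul_apply, smul_eq_mul, Pi.zero_apply]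
        linear_combination this
      refine Prod.ext (funext fun j => ?_) (funext fun j => ?_) <;>
        (have hj := h j; by_cases h20 : p.2 j = 0)
      · rw [h20, zero_smul, add_zero, smul_eq_zero] at hj
        exact hj.resolve_right hv₁
      · exact (hv₂ (-(p.2 j)⁻¹ * p.1 j) (by
          have h2' := congrArg (fun z => (p.2 j)⁻¹ • z) (eq_neg_of_add_eq_zero_right hj)
          simp only [inv_smul_smul₀ h20] at h2'
          rw [h2', smul_neg, smul_smul, neg_mul, neg_smul])).elim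
      · exact h20
      · exact (hv₂ (-(p.2 j)⁻¹ * p.1 j) (by
          have h2' := congrArg (fun z => (p.2 j)⁻¹ • z) (eq_neg_of_add_eq_zero_right hj)
          simp only [inv_smul_smul₀ h20] at h2'
          rw [h2', smul_neg, smul_smul, neg_mul, neg_smul])).elim
    have := Submodule.finrank_mono (show LinearMap.range emb ≤ LinearMap.range P by
      rintro _ ⟨p, rfl⟩
      exact Submodule.add_mem _ (hlow _ ⟨v₁, rfl⟩ p.1) (hlow _ ⟨v₂, rfl⟩ p.2))
    rw [LinearMap.finrank_range_of_inj hinj] at this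
    simp only [Module.finrank_prod, Module.finrank_fintype_fun_eq_card, Fintype.card_fin] at this
    omega

end Vale.Agent.P002.Two
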