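import Vale.Agent.P002.Two.Witness
import Vale.Agent.P002.Two.Algebra

/-! At a good point the velocities of nice flows fill the kernel of the linearised equations. -/

open Matrix Filter Topology NormedSpace Module

namespace Vale.Agent.P002.Two

open Vale.Agent.P002.Surface (Mat Tup comm rel PF PMap tlPow mul_adj adj_mul det_adj hasDerivAt_expu
  hasDerivAt_expu_neg)
open Vale.Agent.P002.General (Sp YSp HomS ClS eqS eqS_hom composeS GoodX adj_adj' rel_two tailRel
  trace_of_det_line hasDerivAt_update)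

attribute [local instance] Matrix.linftyOpNormedAddCommGroup Matrix.linftyOpNormedSpace
  Matrix.linftyOpNormedRing Matrix.linftyOpNormedAlgebra

variable {r s : ℕ} {R : Subring ℂ} {T : Fin s → Mat r}

lemma line_deriv {E : Type*} [NormedAddCommGroup E] [NormedSpace ℂ E] (q w : E) :
    HasDerivAt (fun z : ℂ => q + z • w) w 0 := by
  have := ((hasDerivAt_id (0 : ℂ)).smul_const w).const_add q
  simp only [id, one_smul] at this
  exact this

lemma chain {E F : Type*} [NormedAddCommGroup E] [NormedSpace ℂ E] [NormedAddCommGroup F]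
    [NormedSpace ℂ F] {g : E → F} (hg : ContDiff ℂ 1 g) {c : ℂ → E} {v : E} (hc : HasDerivAt c v 0)
    {q : E} (hq : c 0 = q) : HasDerivAt (fun z => g (c z)) (fderiv ℂ g q v) 0 := by
  subst hq
  exact ((hg.differentiable one_ne_zero) (c 0)).hasFDerivAt.comp_hasDerivAt (0 : ℂ) hc

/-- The derivative of the determinant at a matrix of determinant one. -/
lemma det_deriv {c : ℂ → Mat r} {v : Mat r} (hc : HasDerivAt c v 0) (hd : (c 0).det = 1) :
    HasDerivAt (fun z => (c z).det) (((c 0).adjugate * v).trace) 0 := by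
  have hdet : ContDiff ℂ 1 (fun M : Mat r => M.det) :=
    PF.contDiff (PMap.det' fun a b => (PMap.id' (T := Mat r)).entry a b)
  have h1 := chain hdet hc rfl
  suffices h : ((c 0).adjugate * v).trace = fderiv ℂ (fun M : Mat r => M.det) (c 0) v by rwa [h]
  have h2 := chain hdet (line_deriv (c 0) v) (q := c 0) (by simp)
  have e : (fun z : ℂ => (c 0 + z • v).det) = fun z : ℂ => (1 + z • ((c 0).adjugate * v)).det := by
    funext z
    conv_lhs => rw [show c 0 + z • v = c 0 * (1 + z • ((c 0).adjugate * v)) by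
      rw [mul_add, mul_one, mul_smul_comm, ← mul_assoc, mul_adj hd, one_mul]]
    rw [det_mul, hd, one_mul]
  rw [e] at h2
  exact (Surface.hasDerivAt_det_one_add _).unique h2

/-- Exponentials of traceless matrices have determinant one. -/
lemma det_exp {M : Mat r} (hM : M.trace = 0) (u : ℂ) : (exp (u • M)).det = 1 := by
  have hd : ∀ z : ℂ, HasDerivAt (fun v : ℂ => (exp (v • M)).det) 0 z := by
    intro z
    have h := det_deriv (hasDerivAt_expu M) (by simp)
    simp only [zero_smul, exp_zero, adjugate_one, one_mul, hM] at h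
    have hadd : (fun v : ℂ => (exp (v • M)).det) =
        fun v => (exp (z • M)).det * (exp ((v - z) • M)).det := by
      funext v
      rw [← det_mul, ← Matrix.exp_add_of_commute _ _ (((Commute.refl M).smul_left z).smul_right _),
        ← add_smul, add_sub_cancel]
    rw [hadd]
    have hs : HasDerivAt (fun v : ℂ => v - z) 1 z := (hasDerivAt_id z).sub_const z
    have h0 : HasDerivAt (fun v : ℂ => (exp (v • M)).det) 0 (z - z) := by rwa [sub_self]
    simpa using ((HasDerivAt.comp (h := fun v : ℂ => v - z) z h0 hs).const_mul (exp (z • M)).det)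
  have := is_const_of_deriv_eq_zero (fun z => (hd z).differentiableAt) (fun z => (hd z).deriv) u 0
  simpa using this

lemma tl_trace (W : Mat r) (m : ℕ) : (tlPow m W).trace = 0 := by
  rcases Nat.eq_zero_or_pos r with h0 | h0
  · subst h0; simp [Matrix.trace]
  · have : (r : ℂ) ≠ 0 := by exact_mod_cast h0.ne'
    simp [tlPow, trace_sub, trace_smul, div_mul_cancel₀ _ this]

/-- A bilinear map sends two spans into a submodule if it sends the generators there. -/
lemma bilin_mem {V : Type*} [AddCommGroup V] [Module ℂ V]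
    (B : Mat r →ₗ[ℂ] Mat r →ₗ[ℂ] V) (K : Submodule ℂ V) {α β : Type*} {f : α → Mat r}
    {g : β → Mat r} (h : ∀ a b, B (f a) (g b) ∈ K) :
    ∀ Y ∈ Submodule.span ℂ (Set.range f), ∀ X ∈ Submodule.span ℂ (Set.range g), B Y X ∈ K := by
  intro Y hY X hX
  refine (Submodule.span_le (p := K.comap (B Y))).2 ?_ hX
  rintro _ ⟨b, rfl⟩
  refine (Submodule.span_le (p := K.comap (B.flip (g b)))).2 ?_ hY
  rintro _ ⟨a, rfl⟩
  exact h a b

variable (S : Seed R T) {q : Sp 0 s r}

/-- Velocities at `q`. -/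
def Vel0 (q : Sp 0 s r) : Set (Sp 0 s r) :=
  {v | ∃ Ψ, NiceOn T R (ptSet S) Ψ ∧ HasDerivAt (fun u => Ψ u q) v 0}

/-- Their span. -/
noncomputable def VS (q : Sp 0 s r) : Submodule ℂ (Sp 0 s r) := Submodule.span ℂ (Vel0 S q)

/-- The linearised equations. -/
noncomputable def dEq (T : Fin s → Mat r) (q : Sp 0 s r) :=
  fderiv ℂ (fun x : Sp 0 s r => eqS T x) q

/-- The derivative of the commutator of a handle. -/
noncomputable def dQ (i : Fin 2) (q : Sp 0 s r) : Sp 0 s r →L[ℂ] Mat r :=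
  fderiv ℂ (fun p : Sp 0 s r => comm (p.1 i)) q

lemma pmap_comm (i : Fin 2) : PMap (fun p : Sp 0 s r => comm (p.1 i)) :=
  (PMap.comm_slot i).comp PMap.fst

lemma vel_kill (hq : q ∈ closure (ptSet S)) (hqH : q ∈ HomS T) {v : Sp 0 s r}
    (hv : v ∈ VS S q) : dEq T q v = 0 := by
  suffices h : VS S q ≤ LinearMap.ker (dEq T q).toLinearMap from LinearMap.mem_ker.1 (h hv)
  rw [VS, Submodule.span_le]
  rintro w ⟨Ψ, hΨ, hw⟩
  rw [SetLike.mem_coe, LinearMap.mem_ker]
  have h1 := chain (General.PMap.eqS (J := T)).contDiff hw (q := q) (hΨ.2.1 q hqH)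
  have h2 : HasDerivAt (fun u => eqS T (Ψ u q)) 0 0 := by
    have e : (fun u => eqS T (Ψ u q)) = fun _ => eqS T q := funext fun u => by
      have hm : Ψ u q ∈ ClS T R :=
        compose_mem (ptSet_conn S) (ptSet_sub S) 1 (fun _ => Ψ) (fun _ => hΨ) q hq fun _ => u
      rw [eqS_hom hqH, eqS_hom (ClS.subset_hom hm)]
    rw [e]; exact hasDerivAt_const _ _
  exact h1.unique h2

lemma flow_vel (M : Mv T R 0) (hw : ∃ w ∈ closure (ptSet S), GenM (M.word w)) (m : ℕ) :
    ∃ v ∈ VS S q, HasDerivAt (fun u => M.flow m u q) v 0 := by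
  have h : DifferentiableAt ℂ (fun u => M.flow m u q) 0 :=
    (((M.flow_contDiff m).comp (contDiff_id.prodMk contDiff_const)).differentiable one_ne_zero) 0
  exact ⟨_, Submodule.subset_span ⟨_, M.nice hw m, h.hasDerivAt⟩, h.hasDerivAt⟩

lemma ker_det (hqH : q ∈ HomS T) {w : Sp 0 s r} (hw : dEq T q w = 0) :
    (∀ i, ((q.1 i).1.adjugate * (w.1 i).1).trace = 0 ∧ ((q.1 i).2.adjugate * (w.1 i).2).trace = 0) ∧
      ∀ l, ((q.2.2 l).adjugate * w.2.2 l).trace = 0 := by
  have h := (chain (General.PMap.eqS (J := T)).contDiff (line_deriv q w) (q := q) (by simp)).congr_deriv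
    (show _ = (0 : ((Fin 2 → ℂ × ℂ) × Mat r) × ((Fin 0 → ℂ × ℂ) × (Fin s → ℂ))) from hw)
  have hx := hasDerivAt_pi.1 ((ContinuousLinearMap.fst ℂ (Fin 2 → ℂ × ℂ) (Mat r)).hasFDerivAt.comp_hasDerivAt
    (0 : ℂ) ((ContinuousLinearMap.fst ℂ ((Fin 2 → ℂ × ℂ) × Mat r)
      ((Fin 0 → ℂ × ℂ) × (Fin s → ℂ))).hasFDerivAt.comp_hasDerivAt (0 : ℂ) h))
  have hk := hasDerivAt_pi.1 ((ContinuousLinearMap.snd ℂ (Fin 0 → ℂ × ℂ)
    (Fin s → ℂ)).hasFDerivAt.comp_hasDerivAt (0 : ℂ)
      ((ContinuousLinearMap.snd ℂ ((Fin 2 → ℂ × ℂ) × Mat r)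
        ((Fin 0 → ℂ × ℂ) × (Fin s → ℂ))).hasFDerivAt.comp_hasDerivAt (0 : ℂ) h))
  refine ⟨fun i => ⟨trace_of_det_line (hqH.1 i).1 ?_, trace_of_det_line (hqH.1 i).2 ?_⟩,
    fun l => trace_of_det_line (hqH.2.1.2 l) ?_⟩
  · exact (ContinuousLinearMap.fst ℂ ℂ ℂ).hasFDerivAt.comp_hasDerivAt (0 : ℂ) (hx i)
  · exact (ContinuousLinearMap.snd ℂ ℂ ℂ).hasFDerivAt.comp_hasDerivAt (0 : ℂ) (hx i)
  · exact hk l

lemma dQ_local (i : Fin 2) {w : Sp 0 s r} (hw : w.1 i = 0) : dQ i q w = 0 := by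
  refine (chain (pmap_comm i).contDiff (line_deriv q w) (q := q) (by simp)).unique ?_
  have e : (fun z : ℂ => comm ((q + z • w).1 i)) = fun _ => comm (q.1 i) :=
    funext fun z => by simp [hw]
  rw [e]; exact hasDerivAt_const _ _

lemma ker_rel (hqH : q ∈ HomS T) {w : Sp 0 s r} (hw : dEq T q w = 0) (hw2 : w.2 = 0) :
    dQ 0 q w * comm (q.1 1) + comm (q.1 0) * dQ 1 q w = 0 := by
  have h := (chain (General.PMap.eqS (J := T)).contDiff (line_deriv q w) (q := q) (by simp)).congr_deriv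
    (show _ = (0 : ((Fin 2 → ℂ × ℂ) × Mat r) × ((Fin 0 → ℂ × ℂ) × (Fin s → ℂ))) from hw)
  have h2 := (ContinuousLinearMap.snd ℂ (Fin 2 → ℂ × ℂ) (Mat r)).hasFDerivAt.comp_hasDerivAt
    (0 : ℂ) ((ContinuousLinearMap.fst ℂ ((Fin 2 → ℂ × ℂ) × Mat r)
      ((Fin 0 → ℂ × ℂ) × (Fin s → ℂ))).hasFDerivAt.comp_hasDerivAt (0 : ℂ) h)
  have h3 := (((chain (pmap_comm 0).contDiff (line_deriv q w) (q := q) (by simp)).fun_mul
    (chain (pmap_comm 1).contDiff (line_deriv q w) (q := q) (by simp)))).mul_const (tailRel T q.2)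
  have e : (fun z : ℂ => comm ((q + z • w).1 0) * comm ((q + z • w).1 1) * tailRel T q.2) =
      fun z : ℂ => (eqS T (q + z • w)).1.2 := funext fun z => by
    show _ = rel (q + z • w).1 * tailRel T (q + z • w).2
    rw [rel_two, show (q + z • w).2 = q.2 by simp [hw2]]
  rw [e] at h3
  have h4 := h3.unique h2
  simp only [zero_smul, add_zero] at h4
  have hP : (tailRel T q.2).det = 1 := by
    have := congrArg Matrix.det hqH.2.2
    rw [det_mul, det_one, rel_two, det_mul, Surface.hom_comm_det (hqH.1 0).1 (hqH.1 0).2,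
      Surface.hom_comm_det (hqH.1 1).1 (hqH.1 1).2, one_mul, one_mul] at this
    exact this
  have h5 : (dQ 0 q w * comm (q.1 1) + comm (q.1 0) * dQ 1 q w) * tailRel T q.2 = 0 := h4
  have h6 := congrArg (fun X => X * (tailRel T q.2).adjugate) h5
  simpa [mul_assoc, mul_adj hP] using h6

lemma det_comm (P : Mat r × Mat r) (hr : 0 < r) :
    (comm P).det = P.1.det ^ r * P.2.det ^ r := by
  obtain ⟨k, rfl⟩ : ∃ k, r = k + 1 := ⟨r - 1, by omega⟩
  simp only [Surface.comm, det_mul, det_adjugate, Fintype.card_fin, Nat.add_sub_cancel, pow_succ]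
  ring

lemma dQ_trace (hr : 0 < r) (hqH : q ∈ HomS T) (i : Fin 2) {w : Sp 0 s r}
    (hw : dEq T q w = 0) : ((comm (q.1 i)).adjugate * dQ i q w).trace = 0 := by
  obtain ⟨hd, -⟩ := ker_det hqH hw
  have hc := chain (pmap_comm i).contDiff (line_deriv q w) (q := q) (by simp)
  have h1 := det_deriv hc (by simp [Surface.hom_comm_det (hqH.1 i).1 (hqH.1 i).2])
  simp only [zero_smul, add_zero] at h1
  have ha := det_deriv ((ContinuousLinearMap.fst ℂ (Mat r) (Mat r)).hasFDerivAt.comp_hasDerivAt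
    (0 : ℂ) (line_deriv (q.1 i) (w.1 i))) (by simp [(hqH.1 i).1])
  have hb := det_deriv ((ContinuousLinearMap.snd ℂ (Mat r) (Mat r)).hasFDerivAt.comp_hasDerivAt
    (0 : ℂ) (line_deriv (q.1 i) (w.1 i))) (by simp [(hqH.1 i).2])
  replace ha := ha.congr_deriv (g' := 0) (by
    simp only [Function.comp_apply, zero_smul, add_zero]; exact (hd i).1)
  replace hb := hb.congr_deriv (g' := 0) (by
    simp only [Function.comp_apply, zero_smul, add_zero]; exact (hd i).2)
  refine h1.unique ?_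
  have := (ha.fun_pow r).fun_mul (hb.fun_pow r)
  refine (this.congr_deriv (by simp)).congr_of_eventuallyEq (Eventually.of_forall fun z => ?_)
  simp [det_comm _ hr]

/-- The derivative of the commutator of a slid pair. -/
lemma slid_deriv {a b Z : Mat r} (ha : a.det = 1) (hb : b.det = 1) (hZ : Z.trace = 0) :
    HasDerivAt (fun u : ℂ => comm (a * exp (-(u • Z)), exp (u • Z) * b * exp (-(u • Z))))
      (comm (a, b) * (b * Z * b.adjugate - Z)) 0 := by
  have e : (fun u : ℂ => comm (a * exp (-(u • Z)), exp (u • Z) * b * exp (-(u • Z)))) =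
      fun u => a * b * a.adjugate * (exp (u • Z) * b.adjugate * exp (-(u • Z))) := by
    funext u
    set k := exp (u • Z) with hk
    set k' := exp (-(u • Z)) with hk'
    have hd : k'.det = 1 := by rw [hk', show -(u • Z) = (-u) • Z from (neg_smul u Z).symm, det_exp hZ]
    have hkk : k * k' = 1 := by
      rw [hk, hk', ← Matrix.exp_add_of_commute _ _ ((Commute.refl (u • Z)).neg_right),
        add_neg_cancel, exp_zero]
    have h1 : k'.adjugate = k := (left_inv_eq_right_inv hkk (mul_adj hd)).symm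
    have h2 : k.adjugate = k' := by rw [← h1, adj_adj' hd]
    have h3 : k' * k = 1 := by rw [← h1, mul_adj hd]
    simp only [Surface.comm, adjugate_mul_distrib, h1, h2, mul_assoc]
    rw [← mul_assoc k' k, h3, one_mul, ← mul_assoc k' k, h3, one_mul]
  rw [e]
  have := (((hasDerivAt_expu Z).mul_const b.adjugate).fun_mul (hasDerivAt_expu_neg Z)).const_mul
    (a * b * a.adjugate)
  refine this.congr_deriv ?_
  simp only [zero_smul, exp_zero, neg_zero, mul_one, one_mul, Surface.comm]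
  calc a * b * a.adjugate * (Z * b.adjugate + b.adjugate * -Z)
      = a * b * a.adjugate * (b.adjugate * b) * (Z * b.adjugate + b.adjugate * -Z) := by
        rw [adj_mul hb, mul_one]
    _ = a * b * a.adjugate * b.adjugate * (b * Z * b.adjugate - Z) := by
        simp only [mul_assoc, mul_add, mul_sub, mul_neg, ← sub_eq_add_neg]
        rw [← mul_assoc b b.adjugate, mul_adj hb, one_mul]

lemma pre0 (hqH : q ∈ HomS T) (k : (ℕ × ℕ) × (ℕ × ℕ)) :
    (pre (sig R r k) q.1 0).2.adjugate =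
      (q.1 0).1 * ((q.1 0).2 * (q.1 0).1 ^ (k.1.1 + 2)) ^ (k.1.2 + 1) := by
  have hd : ((q.1 0).1 * ((q.1 0).2 * (q.1 0).1 ^ (k.1.1 + 2)) ^ (k.1.2 + 1)).det = 1 := by
    rw [det_mul, det_pow, det_mul, det_pow, (hqH.1 0).1, (hqH.1 0).2]; simp
  exact adj_adj' hd

lemma pre1 (k : (ℕ × ℕ) × (ℕ × ℕ)) :
    (pre (sig R r k) q.1 1).1 = (q.1 1).1 * ((q.1 1).2 * (q.1 1).1 ^ (k.2.1 + 2)) ^ k.2.2 ∧
      (pre (sig R r k) q.1 1).2 = (q.1 1).2 * (q.1 1).1 ^ (k.2.1 + 2) := ⟨rfl, rfl⟩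

variable (hr : 2 ≤ r) (hq : q ∈ closure (ptSet S)) (hqH : q ∈ HomS T)

include hqH in
lemma slide_vel (k : (ℕ × ℕ) × (ℕ × ℕ)) :
    ∃ v ∈ VS S q, v.2 = 0 ∧ dQ 0 q v = comm (q.1 0) *
      ((pre (sig R r k) q.1 1).1 * (pre (sig R r k) q.1 1).2 * (pre (sig R r k) q.1 0).2.adjugate -
        (pre (sig R r k) q.1 0).2.adjugate *
          ((pre (sig R r k) q.1 1).1 * (pre (sig R r k) q.1 1).2)) := by
  obtain ⟨v, hv, hd⟩ := flow_vel S (q := q) _ (slide_witness S k) 1
  obtain ⟨hpre, -, hpost⟩ := pre_spec (sig R r k) hqH.1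
  set σ := sig R r k
  set x := pre σ q.1 with hx
  set Z := tlPow 1 (General.wd x) with hZ
  refine ⟨v, hv, ?_, ?_⟩
  · have h := (ContinuousLinearMap.snd ℂ (Tup 2 r) (YSp 0 s r)).hasFDerivAt.comp_hasDerivAt (0 : ℂ) hd
    exact h.unique (hasDerivAt_const (0 : ℂ) q.2)
  · refine (chain (pmap_comm 0).contDiff hd (q := q) ?_).unique ?_
    · show (slideMv σ T).act q (exp ((0 : ℂ) • _)) (exp (-((0 : ℂ) • _))) = q
      simpa [exp_zero] using (slideMv σ T).act_one q hqH
    have hcomm : ∀ u : ℂ, comm (((slideMv σ T).flow 1 u q).1 0) =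
        comm ((x 0).1 * exp (-(u • Z)), exp (u • Z) * (x 0).2 * exp (-(u • Z))) := fun u => by
      have hd1 : (exp (u • Z)).det = 1 := det_exp (tl_trace _ _) u
      have hd2 : (exp (-(u • Z))).det = 1 := by
        rw [show -(u • Z) = (-u) • Z from (neg_smul u Z).symm]; exact det_exp (tl_trace _ _) _
      exact (σ.1.g_ok ((x 0).1 * exp (-(u • Z)), exp (u • Z) * (x 0).2 * exp (-(u • Z)))
        (by rw [det_mul, (hpre 0).1, hd2, one_mul])
        (by rw [det_mul, det_mul, (hpre 0).2, hd1, hd2, one_mul, one_mul])).2.2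
    refine (slid_deriv (hpre 0).1 (hpre 0).2 (tl_trace (General.wd x) 1)).congr_of_eventuallyEq
      (Eventually.of_forall hcomm) |>.congr_deriv ?_
    have hc0 : comm (x 0) = comm (q.1 0) := (σ.1.f_ok _ (hqH.1 0).1 (hqH.1 0).2).2.2.1
    rw [show comm ((x 0).1, (x 0).2) = comm (q.1 0) from hc0]
    congr 1
    simp only [hZ, tlPow, pow_one, mul_sub, sub_mul, mul_smul_comm, smul_mul_assoc, mul_one,
      mul_adj (hpre 0).2, General.wd, mul_assoc]
    rw [← mul_assoc (x 0).2 (x 0).2.adjugate, mul_adj (hpre 0).2, one_mul]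
    abel

include hqH in
lemma tail_vel (k : (ℕ × ℕ) × (ℕ × ℕ)) (i : Fin s) :
    let P := General.pieceK (n := 0) R T S.T_ok i
    ∃ v ∈ VS S q, v.2.2 = Pi.single i ((P.pre q.2).adjugate * tlPow 1
      ((pre (sig R r k) q.1 0).2.adjugate * (pre (sig R r k) q.1 1).1 *
        (P.pre q.2 * P.mat q.2 * (P.pre q.2).adjugate)) * P.pre q.2 * q.2.2 i) := by
  intro P
  obtain ⟨v, hv, hd⟩ := flow_vel S (q := q) _ (tail_witness S k i) 1
  refine ⟨v, hv, ?_⟩
  have h := ((ContinuousLinearMap.snd ℂ (Tup 0 r) (Fin s → Mat r)).comp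
    (ContinuousLinearMap.snd ℂ (Tup 2 r) (YSp 0 s r))).hasFDerivAt.comp_hasDerivAt (0 : ℂ) hd
  rw [← tail_word _ _ hqH.1]
  set W := (tailMv (sig R r k) P).word q
  refine h.unique ?_
  exact hasDerivAt_update q.2.2 i
    ((((hasDerivAt_expu (tlPow 1 W)).const_mul (P.pre q.2).adjugate).mul_const (P.pre q.2)).mul_const
      (q.2.2 i))

include hr hqH in
lemma tail_fill (h0 : Good0 (q.1 0).1 (q.1 0).2) (h1 : Good1 (q.1 1).1 (q.1 1).2)
    {w : Sp 0 s r} (hw : dEq T q w = 0) : ∃ v ∈ VS S q, v.2 = w.2 := by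
  classical
  obtain ⟨-, hk⟩ := ker_det hqH hw
  set K := (VS S q).map (LinearMap.snd ℂ (Tup 2 r) (YSp 0 s r))
  have key : ∀ i, ((0, Pi.single i (w.2.2 i)) : YSp 0 s r) ∈ K := by
    intro i
    set P := General.pieceK (n := 0) R T S.T_ok i
    set M := P.pre q.2
    have hM : M.det = 1 := P.pre_det _ hqH.2.1
    set X0 := M * P.mat q.2 * M.adjugate
    have hX : X0.det = 1 := by simp [X0, det_mul, det_adj hM, hM, P.mat_det _ hqH.2.1]
    let Λ : Mat r →ₗ[ℂ] YSp 0 s r := (LinearMap.inr ℂ (Tup 0 r) (Fin s → Mat r)) ∘ₗ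
      (LinearMap.single ℂ (fun _ : Fin s => Mat r) i) ∘ₗ (LinearMap.mulRight ℂ (q.2.2 i)) ∘ₗ
      (LinearMap.mulRight ℂ M) ∘ₗ (LinearMap.mulLeft ℂ M.adjugate) ∘ₗ (General.tlL r) ∘ₗ
      (LinearMap.mulRight ℂ X0)
    have gen : ∀ Y ∈ U (q.1 0).1 (q.1 0).2, ∀ X ∈ U (q.1 1).1 (q.1 1).2, Λ (Y * X) ∈ K := by
      refine bilin_mem ((LinearMap.mul ℂ (Mat r)).compr₂ Λ) K ?_
      have base : ∀ k : (ℕ × ℕ) × (ℕ × ℕ),
          Λ ((q.1 0).1 * ((q.1 0).2 * (q.1 0).1 ^ (k.1.1 + 2)) ^ (k.1.2 + 1) *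
            ((q.1 1).1 * ((q.1 1).2 * (q.1 1).1 ^ (k.2.1 + 2)) ^ (k.2.2 + 1))) ∈ K := by
        intro k
        obtain ⟨v, hv, hve⟩ := tail_vel S hqH (k.1, (k.2.1, k.2.2 + 1)) i
        refine ⟨v, hv, Prod.ext (Subsingleton.elim _ _) ?_⟩
        show v.2.2 = _
        rw [hve]
        rw [pre0 hqH, (pre1 (R := R) (q := q) (k.1, (k.2.1, k.2.2 + 1))).1]
        simp only [Λ, LinearMap.comp_apply, LinearMap.mulLeft_apply, LinearMap.mulRight_apply,
          General.tlL_apply, LinearMap.inr_apply, LinearMap.coe_single]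
        simp only [X0, M, P]
      exact fun a b => base (a, b)
    have hall : ∀ Z : Mat r, Λ Z ∈ K := by
      intro Z
      have hU : r * r - r + 1 ≤ finrank ℂ (U (q.1 0).1 (q.1 0).2) := by
        have h2 := Submodule.finrank_add_le_finrank_add_finrank (U (q.1 0).1 (q.1 0).2)
          (Submodule.span ℂ {(1 : Mat r)})
        have h3 : finrank ℂ (Submodule.span ℂ {(1 : Mat r)}) ≤ 1 :=
          (finrank_span_le_card _).trans (by simp)
        have := h0.2.2
        omega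
      have htop := prod_span hr hU h1.2.2.1 h1.2.2.2
      refine (Submodule.span_le (p := K.comap Λ)).2 ?_ (htop.ge (Submodule.mem_top (x := Z)))
      rintro _ ⟨Y, hY, X, hX, rfl⟩
      exact gen Y hY X hX
    set Z := w.2.2 i * (q.2.2 i).adjugate
    have h := hall (M * Z * M.adjugate * X0.adjugate)
    convert h using 1
    have hZ : (M * Z * M.adjugate).trace = 0 := by
      rw [trace_mul_cycle, adj_mul hM, one_mul, trace_mul_comm]; exact hk i
    simp only [Λ, LinearMap.comp_apply, LinearMap.mulLeft_apply, LinearMap.mulRight_apply,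
      General.tlL_apply, LinearMap.inr_apply, LinearMap.coe_single]
    refine Prod.ext rfl (congrArg (Pi.single (M := fun _ : Fin s => Mat r) i) ?_)
    rw [mul_assoc (M * Z * M.adjugate), adj_mul hX, mul_one, tlPow, pow_one, hZ, zero_div, zero_smul,
      sub_zero]
    simp only [← mul_assoc, adj_mul hM, one_mul]
    rw [mul_assoc Z, adj_mul hM, mul_one, show Z = w.2.2 i * (q.2.2 i).adjugate from rfl, mul_assoc,
      adj_mul (hqH.2.1.2 i), mul_one]
  have e : w.2 = ∑ i, ((0, Pi.single i (w.2.2 i)) : YSp 0 s r) := by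
    refine Prod.ext (Subsingleton.elim _ _) ?_
    simp [Prod.snd_sum, Finset.univ_sum_single]
  obtain ⟨v, hv, hve⟩ := (show w.2 ∈ K by rw [e]; exact K.sum_mem fun i _ => key i)
  exact ⟨v, hv, hve⟩

include hqH in
lemma comm_fill (h0 : Good0 (q.1 0).1 (q.1 0).2) (h1 : Good1 (q.1 1).1 (q.1 1).2)
    {Z : Mat r} (hZ : Z.trace = 0) :
    ∃ v ∈ VS S q, v.2 = 0 ∧ dQ 0 q v = comm (q.1 0) * Z := by
  set V0 := (VS S q ⊓ LinearMap.ker (LinearMap.snd ℂ (Tup 2 r) (YSp 0 s r))).map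
    ((dQ 0 q : Sp 0 s r →L[ℂ] Mat r) : Sp 0 s r →ₗ[ℂ] Mat r)
  let C : Mat r →ₗ[ℂ] Mat r := LinearMap.mulLeft ℂ (comm (q.1 0))
  suffices h : C Z ∈ V0 by
    obtain ⟨v, ⟨hv, hv2⟩, hve⟩ := h
    exact ⟨v, hv, hv2, hve⟩
  have base : ∀ k : (ℕ × ℕ) × (ℕ × ℕ),
      C ((q.1 1).1 * ((q.1 1).2 * (q.1 1).1 ^ (k.2.1 + 2)) ^ (k.2.2 + 1) *
          ((q.1 0).1 * ((q.1 0).2 * (q.1 0).1 ^ (k.1.1 + 2)) ^ (k.1.2 + 1)) -
        (q.1 0).1 * ((q.1 0).2 * (q.1 0).1 ^ (k.1.1 + 2)) ^ (k.1.2 + 1) *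
          ((q.1 1).1 * ((q.1 1).2 * (q.1 1).1 ^ (k.2.1 + 2)) ^ (k.2.2 + 1))) ∈ V0 := by
    intro k
    obtain ⟨v, hv, hv2, hve⟩ := slide_vel S hqH k
    refine ⟨v, ⟨hv, hv2⟩, ?_⟩
    show dQ 0 q v = _
    rw [hve]
    have e0 := pre0 (R := R) hqH k
    have e1 : (pre (sig R r k) q.1 1).1 * (pre (sig R r k) q.1 1).2 =
        (q.1 1).1 * ((q.1 1).2 * (q.1 1).1 ^ (k.2.1 + 2)) ^ (k.2.2 + 1) := by
      rw [(pre1 k).1, (pre1 k).2, mul_assoc, ← pow_succ]
    rw [e0, e1]
    rfl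
  refine (Submodule.span_le (p := V0.comap C)).2 ?_ (comm_span h0.2.2 h1.2.2.1 hZ)
  rintro _ ⟨X, hX, Y, hY, rfl⟩
  have h := bilin_mem ((LinearMap.mul ℂ (Mat r) - (LinearMap.mul ℂ (Mat r)).flip).compr₂ C) V0
    (f := fun b : ℕ × ℕ => (q.1 1).1 * ((q.1 1).2 * (q.1 1).1 ^ (b.1 + 2)) ^ (b.2 + 1))
    (g := fun a : ℕ × ℕ => (q.1 0).1 * ((q.1 0).2 * (q.1 0).1 ^ (a.1 + 2)) ^ (a.2 + 1))
    (fun b a => by
      simp only [LinearMap.compr₂_apply, LinearMap.sub_apply, LinearMap.flip_apply,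
        LinearMap.mul_apply']
      exact base (a, b)) X hX Y hY
  simp only [LinearMap.compr₂_apply, LinearMap.sub_apply, LinearMap.flip_apply,
    LinearMap.mul_apply'] at h
  exact h

/-- One handle placed in a slot. -/
noncomputable def emb (s r : ℕ) (i : Fin 2) : Mat r × Mat r →ₗ[ℂ] Sp 0 s r :=
  LinearMap.inl ℂ (Tup 2 r) (YSp 0 s r) ∘ₗ LinearMap.single ℂ (fun _ : Fin 2 => Mat r × Mat r) i

lemma emb_apply (i : Fin 2) (P : Mat r × Mat r) :
    emb s r i P = ((Pi.single i P : Tup 2 r), 0) := rfl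

/-- A subspace with large image and large kernel part fills a small space. -/
lemma fibre_top {V : Type*} [AddCommGroup V] [Module ℂ V] [FiniteDimensional ℂ V]
    (f g : V →ₗ[ℂ] Mat r) {A B : Submodule ℂ (Mat r)} {a b : Mat r} (ha : a.det = 1)
    (hb : b.det = 1) (W K : Submodule ℂ V) (hWK : W ≤ K) (hK : finrank ℂ K + 1 ≤ r * r)
    (hA : r * r - r ≤ finrank ℂ A) (hB : r - 1 ≤ finrank ℂ B)
    (himg : A.map (LinearMap.mulLeft ℂ a) ≤ LinearMap.range (f ∘ₗ W.subtype))
    (hkerπ : B.map (LinearMap.mulLeft ℂ b) ≤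
      (LinearMap.ker (f ∘ₗ W.subtype)).map (g ∘ₗ W.subtype)) : W = K := by
  refine Submodule.eq_of_le_of_finrank_le hWK ?_
  have e1 : finrank ℂ (LinearMap.range (f ∘ₗ W.subtype)) + finrank ℂ (LinearMap.ker (f ∘ₗ W.subtype)) = finrank ℂ W :=
    LinearMap.finrank_range_add_finrank_ker (f ∘ₗ W.subtype)
  have e2 := Submodule.finrank_mono himg
  have e3 := Submodule.finrank_mono hkerπ
  have e4 := Submodule.finrank_map_le (g ∘ₗ W.subtype) (LinearMap.ker (f ∘ₗ W.subtype))
  have inj : ∀ A : Mat r, A.det = 1 → Function.Injective (LinearMap.mulLeft ℂ A) :=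
    fun A hA X Y h => by
      have := congrArg (fun M => A.adjugate * M) h
      simpa [← mul_assoc, adj_mul hA] using this
  rw [← (Submodule.equivMapOfInjective _ (inj a ha) _).finrank_eq] at e2
  rw [← (Submodule.equivMapOfInjective _ (inj b hb) _).finrank_eq] at e3
  have : r ≤ r * r := Nat.le_mul_self r
  omega

include hr hqH hq in
lemma handle_fill (i : Fin 2) (hpw : r - 1 ≤ finrank ℂ (Pw (q.1 i).1))
    (hzs : r * r - r ≤ finrank ℂ (Zs (q.1 i).1 (q.1 i).2))
    (hsur : ∀ Z : Mat r, Z.trace = 0 → ∃ v, dEq T q v = 0 ∧ dQ i q v = comm (q.1 i) * Z)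
    {w : Mat r × Mat r} (h1 : ((q.1 i).1.adjugate * w.1).trace = 0)
    (h2 : ((q.1 i).2.adjugate * w.2).trace = 0) (hw : dQ i q (emb s r i w) = 0) :
    emb s r i w ∈ VS S q := by
  obtain ⟨ha, hb⟩ := hqH.1 i
  set a := (q.1 i).1
  set b := (q.1 i).2
  set pa := perp (Submodule.span ℂ {a.adjugate})
  set pb := perp (Submodule.span ℂ {b.adjugate})
  have hperp : ∀ (A : Mat r), A.det = 1 → finrank ℂ (perp (Submodule.span ℂ {A.adjugate})) + 1 = r * r := by
    intro A hA
    have hne : A.adjugate ≠ 0 := fun h => by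
      have := det_adj hA
      have hne' : Nonempty (Fin r) := ⟨⟨0, by omega⟩⟩
      rw [h, det_zero] at this
      exact zero_ne_one this
    have := finrank_perp (Submodule.span ℂ {A.adjugate})
    rwa [finrank_span_singleton hne] at this
  have hmem : ∀ (A Y : Mat r),
      Y ∈ perp (Submodule.span ℂ {A.adjugate}) ↔ (A.adjugate * Y).trace = 0 := fun A Y => by
    rw [mem_perp]
    refine ⟨fun h => by rw [trace_mul_comm]; exact h _ (Submodule.mem_span_singleton_self _), ?_⟩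
    intro h M hM
    obtain ⟨c, rfl⟩ := Submodule.mem_span_singleton.1 hM
    rw [mul_smul_comm, trace_smul, trace_mul_comm, h, smul_zero]
  let φ : (pa × pb) →ₗ[ℂ] Mat r := ((dQ i q : Sp 0 s r →L[ℂ] Mat r) : Sp 0 s r →ₗ[ℂ] Mat r) ∘ₗ
    emb s r i ∘ₗ LinearMap.prodMap pa.subtype pb.subtype
  have hrange : (perp (Submodule.span ℂ {(1 : Mat r)})).map (LinearMap.mulLeft ℂ (comm (q.1 i))) ≤
      LinearMap.range φ := by
    rintro _ ⟨Z, hZ, rfl⟩
    have hZ0 : Z.trace = 0 := by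
      simpa using mem_perp.1 hZ 1 (Submodule.mem_span_singleton_self _)
    obtain ⟨v, hv, hve⟩ := hsur Z hZ0
    obtain ⟨hd, -⟩ := ker_det hqH hv
    refine ⟨(⟨(v.1 i).1, (hmem _ _).2 (hd i).1⟩, ⟨(v.1 i).2, (hmem _ _).2 (hd i).2⟩), ?_⟩
    show dQ i q (emb s r i (v.1 i)) = _
    rw [show LinearMap.mulLeft ℂ (comm (q.1 i)) Z = comm (q.1 i) * Z from rfl, ← hve,
      ← sub_eq_zero, ← map_sub]
    exact dQ_local i (by simp [emb_apply])
  have hQd : (comm (q.1 i)).det = 1 := Surface.hom_comm_det ha hb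
  have hkerφ : finrank ℂ (LinearMap.ker φ) + 1 ≤ r * r := by
    have e1 := LinearMap.finrank_range_add_finrank_ker φ
    have e2 := Submodule.finrank_mono hrange
    have hinj : Function.Injective (LinearMap.mulLeft ℂ (comm (q.1 i))) := fun X Y h => by
      have := congrArg (fun M => (comm (q.1 i)).adjugate * M) h
      simpa [← mul_assoc, adj_mul hQd] using this
    rw [← (Submodule.equivMapOfInjective _ hinj _).finrank_eq] at e2
    have e3 := finrank_perp (Submodule.span ℂ {(1 : Mat r)})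
    have h1ne : (1 : Mat r) ≠ 0 := fun h => by
      have := congrArg (fun M : Mat r => M ⟨0, by omega⟩ ⟨0, by omega⟩) h
      simp at this
    rw [finrank_span_singleton h1ne] at e3
    rw [Module.finrank_prod] at e1
    have : finrank ℂ pa + 1 = r * r := hperp a ha
    have : finrank ℂ pb + 1 = r * r := hperp b hb
    omega
  -- the velocities inside the fibre
  set W : Submodule ℂ (pa × pb) :=
    LinearMap.ker φ ⊓ (VS S q).comap (emb s r i ∘ₗ LinearMap.prodMap pa.subtype pb.subtype)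
  have hW : ∀ (X Y : Mat r) (M : Mv T R 0) (m : ℕ), (∃ p ∈ closure (ptSet S), GenM (M.word p)) →
      (∀ u : ℂ, ∃ P, M.act q (exp (u • tlPow m (M.word q))) (exp (-(u • tlPow m (M.word q)))) =
        (Function.update q.1 i P, q.2) ∧ comm P = comm (q.1 i)) →
      HasDerivAt (fun u => ((M.flow m u q).1 i).1) X 0 →
      (∀ {v}, HasDerivAt (fun u => ((M.flow m u q).1 i).2) v 0 → v = Y ∨ Y = 0) →
      ∃ z ∈ W, (z.1 : Mat r) = X ∧ ((z.2 : Mat r) = Y ∨ Y = 0) := by
    intro X Y M m hwit hupd hX hY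
    obtain ⟨v, hv, hd⟩ := flow_vel S (q := q) M hwit m
    have hk := vel_kill S hq hqH hv
    obtain ⟨hdt, -⟩ := ker_det hqH hk
    have hother : ∀ l, l ≠ i → v.1 l = 0 := fun l hl => by
      have h := hasDerivAt_pi.1
        ((ContinuousLinearMap.fst ℂ (Tup 2 r) (YSp 0 s r)).hasFDerivAt.comp_hasDerivAt (0 : ℂ) hd) l
      refine h.unique ?_
      have e : (fun u => (M.flow m u q).1 l) = fun _ => q.1 l := funext fun u => by
        obtain ⟨P, hP, -⟩ := hupd u
        show (M.act q _ _).1 l = _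
        rw [hP]; exact Function.update_of_ne hl _ _
      exact (hasDerivAt_const (0 : ℂ) (q.1 l)).congr_of_eventuallyEq
        (Eventually.of_forall (congrFun e))
    have hv2 : v.2 = 0 := by
      have h := (ContinuousLinearMap.snd ℂ (Tup 2 r) (YSp 0 s r)).hasFDerivAt.comp_hasDerivAt (0 : ℂ) hd
      refine h.unique ((hasDerivAt_const (0 : ℂ) q.2).congr_of_eventuallyEq
        (Eventually.of_forall fun u => ?_))
      obtain ⟨P, hP, -⟩ := hupd u
      show (M.act q _ _).2 = _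
      rw [hP]
    have he : emb s r i (v.1 i) = v := by
      refine Prod.ext (funext fun l => ?_) hv2.symm
      by_cases h : l = i
      · subst h; simp [emb_apply]
      · simp [emb_apply, h, hother l h]
    have hq0 : dQ i q v = 0 := by
      refine (chain (pmap_comm i).contDiff hd (q := q) ?_).unique ?_
      · show M.act q (exp ((0 : ℂ) • _)) (exp (-((0 : ℂ) • _))) = q
        simpa [exp_zero] using M.act_one q hqH
      refine (hasDerivAt_const (0 : ℂ) (comm (q.1 i))).congr_of_eventuallyEq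
        (Eventually.of_forall fun u => ?_)
      obtain ⟨P, hP, hPc⟩ := hupd u
      show comm ((M.act q _ _).1 i) = _
      rw [hP]
      show comm (Function.update q.1 i P i) = _
      rw [Function.update_self, hPc]
    have hslot := hasDerivAt_pi.1
      ((ContinuousLinearMap.fst ℂ (Tup 2 r) (YSp 0 s r)).hasFDerivAt.comp_hasDerivAt (0 : ℂ) hd) i
    refine ⟨(⟨(v.1 i).1, (hmem _ _).2 (hdt i).1⟩, ⟨(v.1 i).2, (hmem _ _).2 (hdt i).2⟩), ⟨?_, ?_⟩,
      ((ContinuousLinearMap.fst ℂ (Mat r) (Mat r)).hasFDerivAt.comp_hasDerivAt (0 : ℂ) hslot).unique hX,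
      hY ((ContinuousLinearMap.snd ℂ (Mat r) (Mat r)).hasFDerivAt.comp_hasDerivAt (0 : ℂ) hslot)⟩
    · show dQ i q (emb s r i (v.1 i)) = 0
      rw [he]; exact hq0
    · show emb s r i (v.1 i) ∈ VS S q
      rw [he]; exact hv
  let π : W →ₗ[ℂ] Mat r := pa.subtype ∘ₗ LinearMap.fst ℂ pa pb ∘ₗ W.subtype
  have himg : (Zs a b).map (LinearMap.mulLeft ℂ a) ≤ LinearMap.range π := by
    rw [Zs, Submodule.map_span_le]
    rintro _ ⟨k, rfl⟩
    set Z := tlPow (k.2 + 1) (b * a ^ (k.1 + 2)) with hZ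
    have hupd : ∀ u : ℂ, ∃ P,
        (sndMv R T i (k.1 + 2)).act q (exp (u • Z)) (exp (-(u • Z))) = (Function.update q.1 i P, q.2) ∧
          comm P = comm (q.1 i) := by
      intro u
      refine ⟨_, rfl, ?_⟩
      have hk : (exp (u • Z)).det = 1 := det_exp (tl_trace _ _) u
      have hk' : (exp (-(u • Z))) = (exp (u • Z)).adjugate := by
        refine (left_inv_eq_right_inv (adj_mul hk) ?_).symm
        rw [← Matrix.exp_add_of_commute _ _ ((Commute.refl (u • Z)).neg_right), add_neg_cancel,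
          exp_zero]
      have hbm : (b * a ^ (k.1 + 2)).det = 1 := by simp [det_mul, det_pow, ha, hb]
      have hc : Commute (exp (u • Z)) (b * a ^ (k.1 + 2)) :=
        ((((Commute.refl (b * a ^ (k.1 + 2))).pow_left _).sub_left
          ((Commute.one_left _).smul_left _)).smul_left u).exp_left
      have hak : (a * exp (u • Z)).det = 1 := by rw [det_mul, ha, hk, one_mul]
      show comm (a * exp (u • Z), b * a ^ (k.1 + 2) * (exp (-(u • Z)) * a.adjugate) ^ (k.1 + 2)) =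
        comm (a, b)
      rw [hk', ← adjugate_mul_distrib]
      have c : Commute (a * exp (u • Z)).adjugate (a * exp (u • Z)) :=
        (adj_mul hak).trans (mul_adj hak).symm
      rw [Surface.comm_twist_right hak hbm (by rw [det_pow, det_adj hak, one_pow])
          (c.pow_left _).eq,
        Surface.comm_twist_left ha hbm hk hc.eq,
        Surface.comm_twist_right ha hb (by rw [det_pow, ha, one_pow]) ((Commute.refl _).pow_left _)]
    have hX : HasDerivAt (fun u => (((sndMv R T i (k.1 + 2)).flow (k.2 + 1) u q).1 i).1) (a * Z) 0 := by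
      refine ((hasDerivAt_expu Z).const_mul a).congr_of_eventuallyEq (Eventually.of_forall fun u => ?_)
      simp [Mv.flow, sndMv, a, b, hZ]
    obtain ⟨z, hz, hz1, -⟩ := hW (a * Z) 0 (sndMv R T i (k.1 + 2)) (k.2 + 1)
      (snd_witness S i k.1) hupd hX (fun _ => Or.inr rfl)
    exact ⟨⟨z, hz⟩, hz1⟩
  have hkerπ : (Pw a).map (LinearMap.mulLeft ℂ b) ≤
      (LinearMap.ker π).map (pb.subtype ∘ₗ LinearMap.snd ℂ pa pb ∘ₗ W.subtype) := by
    rw [Pw, Submodule.map_span_le]
    rintro _ ⟨m, rfl⟩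
    by_cases hb0 : b * tlPow m a = 0
    · rw [show LinearMap.mulLeft ℂ b (tlPow m a) = 0 from hb0]; exact Submodule.zero_mem _
    have hupd : ∀ u : ℂ, ∃ P,
        (fstMv R T i).act q (exp (u • tlPow m a)) (exp (-(u • tlPow m a))) =
          (Function.update q.1 i P, q.2) ∧ comm P = comm (q.1 i) := by
      intro u
      refine ⟨_, rfl, ?_⟩
      have hc : Commute (exp (u • tlPow m a)) a :=
        ((((Commute.refl a).pow_left _).sub_left ((Commute.one_left _).smul_left _)).smul_left u).exp_left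
      exact Surface.comm_twist_right ha hb (det_exp (tl_trace _ _) u) hc.eq
    have hX : HasDerivAt (fun u => (((fstMv R T i).flow m u q).1 i).1) 0 0 := by
      refine (hasDerivAt_const (0 : ℂ) a).congr_of_eventuallyEq (Eventually.of_forall fun u => ?_)
      simp [Mv.flow, fstMv, a]
    have hY : ∀ {v : Mat r}, HasDerivAt (fun u => (((fstMv R T i).flow m u q).1 i).2) v 0 →
        v = b * tlPow m a ∨ b * tlPow m a = 0 := by
      intro v hv
      refine Or.inl (hv.unique ?_)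
      refine ((hasDerivAt_expu (tlPow m a)).const_mul b).congr_of_eventuallyEq
        (Eventually.of_forall fun u => ?_)
      simp [Mv.flow, fstMv, a, b]
    obtain ⟨z, hz, hz1, hz2⟩ := hW 0 (b * tlPow m a) (fstMv R T i) m (fst_witness S i) hupd hX hY
    exact ⟨⟨z, hz⟩, hz1, hz2.resolve_right hb0⟩
  have hWtop : W = LinearMap.ker φ :=
    fibre_top (pa.subtype ∘ₗ LinearMap.fst ℂ pa pb) (pb.subtype ∘ₗ LinearMap.snd ℂ pa pb)
      ha hb W (LinearMap.ker φ) inf_le_left hkerφ hzs hpw himg hkerπ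
  have hwm : ((⟨w.1, (hmem _ _).2 h1⟩, ⟨w.2, (hmem _ _).2 h2⟩) : pa × pb) ∈ W := by
    rw [hWtop]; exact hw
  exact hwm.2

include hr hqH hq in
/-- The tangent space is spanned. -/
theorem span_full (h0 : Good0 (q.1 0).1 (q.1 0).2) (h1 : Good1 (q.1 1).1 (q.1 1).2)
    {w : Sp 0 s r} (hw : dEq T q w = 0) : w ∈ VS S q := by
  obtain ⟨v, hv, hv2⟩ := tail_fill S hr hqH h0 h1 hw
  have hQd : ∀ i, (comm (q.1 i)).det = 1 := fun i => Surface.hom_comm_det (hqH.1 i).1 (hqH.1 i).2
  have hw' : dEq T q (w - v) = 0 := by rw [map_sub, hw, vel_kill S hq hqH hv, sub_zero]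
  have hw'2 : (w - v).2 = 0 := by rw [Prod.snd_sub, hv2, sub_self]
  obtain ⟨v', hv', hv'2, hv'Q⟩ := comm_fill S hqH h0 h1
    (Z := (comm (q.1 0)).adjugate * dQ 0 q (w - v)) (dQ_trace (by omega) hqH 0 hw')
  rw [← mul_assoc, mul_adj (hQd 0), one_mul] at hv'Q
  set z := w - v - v' with hz
  have hzk : dEq T q z = 0 := by rw [hz, map_sub, hw', vel_kill S hq hqH hv', sub_zero]
  have hz2 : z.2 = 0 := by rw [hz, Prod.snd_sub, hw'2, hv'2, sub_zero]
  have hz0 : dQ 0 q z = 0 := by rw [hz, map_sub, hv'Q, sub_self]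
  have hz1 : dQ 1 q z = 0 := by
    have := ker_rel hqH hzk hz2
    rw [hz0, zero_mul, zero_add] at this
    have := congrArg (fun M => (comm (q.1 0)).adjugate * M) this
    simpa [← mul_assoc, adj_mul (hQd 0)] using this
  obtain ⟨hzd, -⟩ := ker_det hqH hzk
  have hpart : ∀ i, dQ i q (emb s r i (z.1 i)) = dQ i q z := fun i => by
    rw [← sub_eq_zero, ← map_sub]; exact dQ_local i (by simp [emb_apply])
  have hsur0 : ∀ Z : Mat r, Z.trace = 0 → ∃ v, dEq T q v = 0 ∧ dQ 0 q v = comm (q.1 0) * Z :=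
    fun Z hZ => by
      obtain ⟨u, hu, -, huQ⟩ := comm_fill S hqH h0 h1 hZ
      exact ⟨u, vel_kill S hq hqH hu, huQ⟩
  have hsur1 : ∀ Z : Mat r, Z.trace = 0 → ∃ v, dEq T q v = 0 ∧ dQ 1 q v = comm (q.1 1) * Z := by
    intro Z hZ
    set Q := comm (q.1 1)
    obtain ⟨u, hu, hu2, huQ⟩ := comm_fill S hqH h0 h1 (Z := -(Q * Z * Q.adjugate)) (by
      rw [trace_neg, trace_mul_cycle, adj_mul (hQd 1), one_mul, hZ, neg_zero])
    refine ⟨u, vel_kill S hq hqH hu, ?_⟩
    have hh := ker_rel hqH (vel_kill S hq hqH hu) hu2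
    rw [huQ, mul_assoc, ← mul_add] at hh
    have hh' := congrArg (fun M => (comm (q.1 0)).adjugate * M) hh
    simp only [← mul_assoc, adj_mul (hQd 0), one_mul, mul_zero] at hh'
    rw [neg_mul, mul_assoc, adj_mul (hQd 1), mul_one, neg_add_eq_zero] at hh'
    exact hh'.symm
  have e : w = v + v' + (emb s r 0 (z.1 0) + emb s r 1 (z.1 1)) := by
    have : emb s r 0 (z.1 0) + emb s r 1 (z.1 1) = z := by
      refine Prod.ext (funext fun l => ?_) (by simp [emb_apply, hz2])
      fin_cases l <;> simp [emb_apply]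
    rw [this, hz]; abel
  rw [e]
  refine Submodule.add_mem _ (Submodule.add_mem _ hv hv') (Submodule.add_mem _ ?_ ?_)
  · exact handle_fill S hr hq hqH 0 h0.1 h0.2.1 hsur0 (hzd 0).1 (hzd 0).2 ((hpart 0).trans hz0)
  · exact handle_fill S hr hq hqH 1 h1.1 h1.2.1 hsur1 (hzd 1).1 (hzd 1).2 ((hpart 1).trans hz1)

end Vale.Agent.P002.Two
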