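import Vale.Agent.P002.Two.Good
import Vale.Agent.P002.Two.Span
import Vale.Agent.P002.Global.Main

/-! In genus two an integral-dense irreducible piece around a point with irreducible first handle. -/

open Matrix Filter Topology Module

namespace Vale.Agent.P002.Two

open Vale.Agent.P002.Surface (Mat Tup comm PMap mul_adj adj_mul det_adj)
open Vale.Agent.P002.General (Sp HomS ClS eqS eqS_hom composeS open_of_param adj_adj')
open Vale.Agent.P002.Twisted (IntMat)

attribute [local instance] Matrix.linftyOpNormedAddCommGroup Matrix.linftyOpNormedSpace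
  Matrix.linftyOpNormedRing Matrix.linftyOpNormedAlgebra

variable {r s : ℕ} {R : Subring ℂ} {T : Fin s → Mat r}

/-- The nice flows at a good point parametrise a neighbourhood of it in the representations. -/
lemma exists_param_two (hr : 2 ≤ r) (S : Seed R T) {q : Sp 0 s r} (hq : q ∈ closure (ptSet S))
    (hqH : q ∈ HomS T) (h0 : Good0 (q.1 0).1 (q.1 0).2) (h1 : Good1 (q.1 1).1 (q.1 1).2) :
    ∃ (m : ℕ) (Φ : (Fin m → ℂ) → Sp 0 s r), ContDiff ℂ 1 Φ ∧ Φ 0 = q ∧ (∀ t, Φ t ∈ ClS T R) ∧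
      ∃ U : Set (Sp 0 s r), IsOpen U ∧ q ∈ U ∧ ∀ x ∈ U ∩ HomS T, ∃ t, Φ t = x := by
  obtain ⟨v, hv, hspan, -⟩ := Submodule.exists_fun_fin_finrank_span_eq ℂ (Vel0 S q)
  generalize finrank ℂ ↥(Submodule.span ℂ (Vel0 S q)) = m at v hv hspan
  choose Ψ hΨ hΨd using hv
  let Φ : (Fin m → ℂ) → Sp 0 s r := fun t => composeS m Ψ t q
  have hΦc : ContDiff ℂ 1 Φ :=
    (compose_contDiff m Ψ hΨ).comp (contDiff_id.prodMk contDiff_const)
  have hΦ0 : Φ 0 = q := compose_zero m Ψ hΨ q hqH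
  have hcl : ∀ t, Φ t ∈ ClS T R := fun t => compose_mem (ptSet_conn S) (ptSet_sub S) m Ψ hΨ q hq t
  have hsingle : ∀ i, fderiv ℂ Φ 0 (Pi.single i 1) = v i := fun i => by
    have hline : HasDerivAt (fun z : ℂ => z • (Pi.single i 1 : Fin m → ℂ)) (Pi.single i 1) 0 := by
      simpa using (hasDerivAt_id (0 : ℂ)).smul_const (Pi.single i 1 : Fin m → ℂ)
    refine (chain hΦc hline (q := (0 : Fin m → ℂ)) (by simp)).unique ?_
    refine (hΨd i).congr_of_eventuallyEq (Eventually.of_forall fun z => ?_)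
    show composeS m Ψ (z • Pi.single i 1) q = Ψ i z q
    rw [← Pi.single_smul, smul_eq_mul, mul_one]
    exact compose_single m Ψ hΨ i z q hqH (ClS.subset_hom
      (compose_mem (ptSet_conn S) (ptSet_sub S) 1 (fun _ => Ψ i) (fun _ => hΨ i) q hq fun _ => z))
  have hF := (General.PMap.eqS (n := 0) (J := T)).contDiff
  obtain ⟨U, hUo, hU0, hU⟩ := open_of_param hF hΦc (c := eqS T q)
    (fun t => by rw [eqS_hom (ClS.subset_hom (hcl t)), eqS_hom hqH]) fun w hw => by
      rw [hΦ0] at hw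
      have hmem := span_full S hr hq hqH h0 h1 (w := w) hw
      rw [VS, ← hspan] at hmem
      refine (Submodule.span_le (p := LinearMap.range (fderiv ℂ Φ 0).toLinearMap)).2 ?_ hmem
      rintro _ ⟨i, rfl⟩
      exact ⟨_, hsingle i⟩
  rw [hΦ0] at hU0
  exact ⟨m, Φ, hΦc, hΦ0, hcl, U, hUo, hU0, fun x hx =>
    hU x hx.1 (by rw [eqS_hom hx.2, eqS_hom hqH])⟩

/-- The seed in genus two. -/
theorem exists_seed (r s : ℕ) (J : Fin s → Mat r) (hr : 2 ≤ r) (hdet : ∀ i, (J i).det = 1)
    (hroot : ∀ i, ∀ μ : ℂ, (J i).charpoly.IsRoot μ → ∃ N > 0, μ ^ N = 1) (hs : s ≠ 0) :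
    Global.Seed 2 r s J := by
  intro _
  choose S₀ T₀ hS₀ hJT₀ hT₀ using fun i => General.exists_rep (hdet i) (hroot i)
  obtain ⟨D, h, Y, hD, hTint, hinj, hH, hhi, hY, hYi, hrel⟩ :=
    General.exists_handle (by omega : 0 < r) hT₀
  let T : Fin s → Mat r := fun i => D * T₀ i * D.adjugate
  have hcls : ∀ i, ∃ k : Mat r, k.det = 1 ∧ J i = k * T i * k.adjugate := fun i => by
    refine ⟨S₀ i * D.adjugate, by rw [det_mul, hS₀, det_adj hD, one_mul], ?_⟩
    simp only [T, hJT₀, adjugate_mul_distrib, adj_adj' hD, mul_assoc]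
    rw [← mul_assoc D.adjugate D, adj_mul hD, one_mul, ← mul_assoc D.adjugate D, adj_mul hD,
      one_mul]
  let S0 : Set ℂ := Set.range (fun q : Fin r × Fin r => diagonal h q.1 q.2) ∪
    Set.range (fun q : Fin r × Fin r => Y q.1 q.2) ∪
    Set.range (fun q : Fin s × Fin r × Fin r => T q.1 q.2.1 q.2.2)
  let L : IntermediateField ℚ ℂ := IntermediateField.adjoin ℚ S0
  let R : Subring ℂ := L.toSubring ⊓ (integralClosure ℤ ℂ).toSubring
  have hS0 : ∀ x ∈ S0, IsIntegral ℤ x := by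
    rintro x ((⟨q, rfl⟩ | ⟨q, rfl⟩) | ⟨q, rfl⟩)
    exacts [hhi _ _, hYi _ _, hTint q.1 q.2.1 q.2.2]
  have hfin : FiniteDimensional ℚ L := by
    have : Finite S0 :=
      (((Set.finite_range _).union (Set.finite_range _)).union (Set.finite_range _)).to_subtype
    exact IntermediateField.finiteDimensional_adjoin fun x hx => (hS0 x hx).tower_top
  have hmemR : ∀ x ∈ S0, x ∈ R := fun x hx => ⟨IntermediateField.subset_adjoin ℚ S0 hx, hS0 x hx⟩
  have hTR : ∀ i, IntMat R (T i) := fun i a b => hmemR _ (Or.inr ⟨(i, a, b), rfl⟩)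
  have hYR : IntMat R Y := fun a b => hmemR _ (Or.inl (Or.inr ⟨(a, b), rfl⟩))
  have hTd : ∀ i, (T i).det = 1 := fun i => by
    simp only [T, det_mul, hD, det_adj hD, (hT₀ i).2.1, one_mul]
  let S : Seed R T :=
    { a := diagonal h * Y.adjugate
      b := Y
      h := h
      a_det := by rw [det_mul, hH, det_adj hY, one_mul]
      b_det := hY
      h_det := hH
      h_inj := hinj
      a_int := IntMat.mul (fun a b => hmemR _ (Or.inl (Or.inl ⟨(a, b), rfl⟩))) hYR.adjugate
      b_int := hYR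
      mul_eq := by rw [mul_assoc, adj_mul hY, mul_one]
      close := by
        rw [show comm (diagonal h * Y.adjugate, Y) = comm (diagonal h, Y) by
          show diagonal h * Y.adjugate * Y * (diagonal h * Y.adjugate).adjugate * Y.adjugate =
            diagonal h * Y * (diagonal h).adjugate * Y.adjugate
          rw [adjugate_mul_distrib, adj_adj' hY, mul_assoc _ Y.adjugate Y, adj_mul hY, mul_one,
            ← mul_assoc]]
        exact hrel
      T_ok := fun i => ⟨hTd i, hTR i⟩ }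
  obtain ⟨t, htd, h0, h1, hirr⟩ := exists_good_point hr S
  obtain ⟨m, Φ, hΦc, hΦ0, hΦcl, U, hUo, hqU, hcover⟩ :=
    exists_param_two hr S (Dp_mem S htd) (Dp_mem_hom S htd) h0 h1
  exact ⟨L, ⟨hfin, fun h0 => absurd h0 hs⟩, Global.piece_of_param (by omega) hcls L hTR (q := Dp S t) rfl hirr hΦc hΦ0 hΦcl
    hUo hqU hcover⟩

end Vale.Agent.P002.Two
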