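import Vale.Agent.P002.Surface.Flow

/-! Spaces of twist directions of one handle. -/

open Matrix

namespace Vale.Agent.P002.Two

open Vale.Agent.P002.Surface (Mat tlPow)

variable {r : ℕ}

/-- Traceless powers of the first matrix. -/
noncomputable def Pw (a : Mat r) : Submodule ℂ (Mat r) :=
  Submodule.span ℂ (Set.range fun m : ℕ => tlPow m a)

/-- Traceless powers of the twisted second matrices. -/
noncomputable def Zs (a b : Mat r) : Submodule ℂ (Mat r) :=
  Submodule.span ℂ (Set.range fun q : ℕ × ℕ => tlPow (q.2 + 1) (b * a ^ (q.1 + 2)))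

/-- The first matrices of the twisted pairs. -/
noncomputable def U (a b : Mat r) : Submodule ℂ (Mat r) :=
  Submodule.span ℂ (Set.range fun q : ℕ × ℕ => a * (b * a ^ (q.1 + 2)) ^ (q.2 + 1))

/-- Enough directions for the first handle. -/
def Good0 (a b : Mat r) : Prop :=
  r - 1 ≤ Module.finrank ℂ (Pw a) ∧ r * r - r ≤ Module.finrank ℂ (Zs a b) ∧
    r * r - r + 2 ≤ Module.finrank ℂ ↥(U a b ⊔ Submodule.span ℂ {(1 : Mat r)})

/-- Enough directions for the second handle. -/
def Good1 (a b : Mat r) : Prop :=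
  r - 1 ≤ Module.finrank ℂ (Pw a) ∧ r * r - r ≤ Module.finrank ℂ (Zs a b) ∧
    r * r - r + 1 ≤ Module.finrank ℂ (U a b) ∧
    ∀ x y : Fin r → ℂ, (∀ w ∈ U a b, y ⬝ᵥ (w *ᵥ x) = 0) → x = 0 ∨ y = 0

end Vale.Agent.P002.Two
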