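import Vale.Agent.P002.General.Compose

/-! Flows of twists along a connected family inside the closure of the integral points. -/

open Matrix Filter Topology NormedSpace

namespace Vale.Agent.P002.Two

open Vale.Agent.P002.Surface (Mat PF PMap tlPow Generic contDiff_mexp)
open Vale.Agent.P002.General (Sp HomS IntS ClS composeS)
open Vale.Agent.P002.Twisted (IntMat)

attribute [local instance] Matrix.linftyOpNormedAddCommGroup Matrix.linftyOpNormedSpace
  Matrix.linftyOpNormedRing Matrix.linftyOpNormedAlgebra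

variable {r n s : ℕ} {R : Subring ℂ} {J : Fin s → Mat r}

/-- Any two points are joined by a differentiable curve in the set. -/
def Conn (S : Set (Sp n s r)) : Prop :=
  ∀ p ∈ S, ∀ q ∈ S, ∃ c : ℂ → Sp n s r, ContDiff ℂ 1 c ∧ (∀ z, c z ∈ S) ∧ c 0 = p ∧ c 1 = q

lemma isClosed_clS : IsClosed (ClS (n := n) J R) := by
  have : ClS (n := n) J R =
      ⋂ f ∈ PF (Sp n s r), {x | (∀ q ∈ HomS J, IntS R q → f q = 0) → f x = 0} := by
    ext x; simp [ClS]
  rw [this]
  refine isClosed_biInter fun f hf => ?_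
  by_cases h : ∀ q ∈ HomS J, IntS R q → f q = 0
  · simp only [imp_iff_right h]
    exact isClosed_eq (PF.contDiff hf).continuous continuous_const
  · convert isClosed_univ
    exact Set.eq_univ_of_forall fun x hx => absurd hx h

/-- A flow preserving the closure along curves through some point of `S`, chosen after the test
function. -/
def NiceOn (J : Fin s → Mat r) (R : Subring ℂ) (S : Set (Sp n s r))
    (Ψ : ℂ → Sp n s r → Sp n s r) : Prop :=
  ContDiff ℂ 1 (fun t : ℂ × Sp n s r => Ψ t.1 t.2) ∧ (∀ p ∈ HomS J, Ψ 0 p = p) ∧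
  ∀ f ∈ PF (Sp n s r), (∀ q ∈ HomS J, IntS R q → f q = 0) →
    ∃ w ∈ S, ∀ x : ℂ → Sp n s r, ContDiff ℂ 1 x → (∀ z, x z ∈ ClS J R) → x 0 = w →
      ∀ u z, f (Ψ u (x z)) = 0

variable {S : Set (Sp n s r)}

lemma compose_contDiff : ∀ (N : ℕ) (Ψ : Fin N → ℂ → Sp n s r → Sp n s r),
    (∀ i, NiceOn J R S (Ψ i)) →
    ContDiff ℂ 1 (fun q : (Fin N → ℂ) × Sp n s r => composeS N Ψ q.1 q.2)
  | 0, _, _ => contDiff_snd
  | N + 1, Ψ, hΨ => by
    have ih := compose_contDiff N (fun i => Ψ i.succ) fun i => hΨ i.succ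
    have ht : ContDiff ℂ 1 (fun q : (Fin (N + 1) → ℂ) × Sp n s r =>
        (fun i : Fin N => q.1 i.succ)) :=
      contDiff_pi.2 fun i => (contDiff_apply ℂ ℂ i.succ).comp contDiff_fst
    exact (hΨ 0).1.comp (((contDiff_apply ℂ ℂ (0 : Fin (N + 1))).comp contDiff_fst).prodMk
      (ih.comp (ht.prodMk contDiff_snd)))

lemma compose_zero : ∀ (N : ℕ) (Ψ : Fin N → ℂ → Sp n s r → Sp n s r),
    (∀ i, NiceOn J R S (Ψ i)) → ∀ x ∈ HomS J, composeS N Ψ 0 x = x
  | 0, _, _, _, _ => rfl
  | N + 1, Ψ, hΨ, x, hx => by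
    show Ψ 0 0 (composeS N (fun i => Ψ i.succ) 0 x) = x
    rw [compose_zero N _ (fun i => hΨ i.succ) x hx, (hΨ 0).2.1 x hx]

lemma compose_single : ∀ (N : ℕ) (Ψ : Fin N → ℂ → Sp n s r → Sp n s r),
    (∀ i, NiceOn J R S (Ψ i)) → ∀ (i : Fin N) (u : ℂ) (x : Sp n s r), x ∈ HomS J →
      Ψ i u x ∈ HomS J → composeS N Ψ (Pi.single i u) x = Ψ i u x
  | 0, _, _, i, _, _, _, _ => i.elim0
  | N + 1, Ψ, hΨ, i, u, x, hx, hux => by
    refine Fin.cases ?_ (fun j => ?_) i hux
    · intro _
      show Ψ 0 _ (composeS N (fun i => Ψ i.succ) _ x) = Ψ 0 u x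
      have e : (fun i : Fin N => Pi.single (M := fun _ : Fin (N + 1) => ℂ) 0 u i.succ) = 0 :=
        funext fun i => Pi.single_eq_of_ne (Fin.succ_ne_zero i) u
      rw [Pi.single_eq_same, e, compose_zero N _ (fun i => hΨ i.succ) x hx]
    · intro hj
      show Ψ 0 _ (composeS N (fun i => Ψ i.succ) _ x) = Ψ j.succ u x
      have e : (fun k : Fin N => Pi.single (M := fun _ : Fin (N + 1) => ℂ) j.succ u k.succ) =
          Pi.single (M := fun _ : Fin N => ℂ) j u := by
        funext k; simp [Pi.single_apply, Fin.succ_inj]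
      rw [e, compose_single N _ (fun i => hΨ i.succ) j u x hx hj,
        Pi.single_eq_of_ne (Fin.succ_ne_zero j).symm, (hΨ 0).2.1 _ hj]

lemma compose_mem (hS : Conn S) (hSc : S ⊆ ClS J R) :
    ∀ (N : ℕ) (Ψ : Fin N → ℂ → Sp n s r → Sp n s r), (∀ i, NiceOn J R S (Ψ i)) →
      ∀ x ∈ closure S, ∀ u : Fin N → ℂ, composeS N Ψ u x ∈ ClS J R
  | 0, _, _, x, hx, _ => closure_minimal hSc isClosed_clS hx
  | N + 1, Ψ, hΨ, x, hx, u => by
    refine closure_minimal (s := S) (t := {y | composeS (N + 1) Ψ u y ∈ ClS J R}) ?_ ?_ hx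
    · intro y hy f hf hvan
      obtain ⟨w, hw, hwf⟩ := (hΨ 0).2.2 f hf hvan
      obtain ⟨c, hc, hcS, hc0, hc1⟩ := hS w hw y hy
      let line : ℂ → Sp n s r := fun z =>
        composeS N (fun i => Ψ i.succ) (z • fun i => u i.succ) (c z)
      have hline : ContDiff ℂ 1 line := (compose_contDiff N _ fun i => hΨ i.succ).comp
        ((contDiff_id.smul contDiff_const).prodMk hc)
      have h0 : line 0 = w := by
        simp only [line, zero_smul, hc0]
        exact compose_zero N _ (fun i => hΨ i.succ) _ (ClS.subset_hom (hSc hw))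
      have := hwf line hline
        (fun z => compose_mem hS hSc N _ (fun i => hΨ i.succ) _ (subset_closure (hcS z)) _) h0 (u 0) 1
      simpa [line, hc1, composeS] using this
    · exact isClosed_clS.preimage
        ((compose_contDiff (N + 1) Ψ hΨ).continuous.comp (continuous_const.prodMk continuous_id))

/-- A substitution valid when `k` commutes with the word. -/
structure Mv (J : Fin s → Mat r) (R : Subring ℂ) (n : ℕ) where
  word : Sp n s r → Mat r
  act : Sp n s r → Mat r → Mat r → Sp n s r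
  pword : PMap word
  pact : PMap (fun q : Sp n s r × (Mat r × Mat r) => act q.1 q.2.1 q.2.2)
  word_det : ∀ p ∈ HomS J, (word p).det = 1
  word_int : ∀ p, IntS R p → IntMat R (word p)
  act_hom : ∀ p ∈ HomS J, ∀ k, k.det = 1 → k * word p = word p * k →
    act p k k.adjugate ∈ HomS J
  act_int : ∀ p k k', IntS R p → IntMat R k → IntMat R k' → IntS R (act p k k')
  act_one : ∀ p ∈ HomS J, act p 1 1 = p

variable (M : Mv J R n)

/-- The flow of a move. -/
noncomputable def Mv.flow (m : ℕ) (u : ℂ) (p : Sp n s r) : Sp n s r :=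
  M.act p (exp (u • tlPow m (M.word p))) (exp (-(u • tlPow m (M.word p))))

lemma Mv.flow_contDiff (m : ℕ) : ContDiff ℂ 1 (fun t : ℂ × Sp n s r => M.flow m t.1 t.2) := by
  have h1 : ContDiff ℂ 1 (fun t : ℂ × Sp n s r => t.1 • Surface.tlPow m (M.word t.2)) :=
    contDiff_fst.smul ((M.pword.tlPow m).contDiff.comp contDiff_snd)
  exact M.pact.contDiff.comp
    (contDiff_snd.prodMk ((contDiff_mexp.comp h1).prodMk (contDiff_mexp.comp h1.neg)))

/-- A matrix similar to a generic diagonal one. -/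
def GenM (A : Mat r) : Prop :=
  ∃ (lam : Fin r → ℂ) (C : Mat r), Generic lam ∧ (∀ i j, lam i = lam j → i = j) ∧ C.det = 1 ∧
    A = C * diagonal lam * C.adjugate

/-- A move whose word is generic at a limit of `S` flows nicely. -/
lemma Mv.nice (hw : ∃ w ∈ closure S, GenM (M.word w)) (m : ℕ) : NiceOn J R S (M.flow m) := by
  refine ⟨M.flow_contDiff m, fun p hp => by simp [Mv.flow, exp_zero, M.act_one p hp],
    fun f hf hvan => ?_⟩
  obtain ⟨w, hwS, lam, C, hl, hinj, hC, hwA⟩ := hw
  have hf' : (fun t : Sp n s r × (Mat r × Mat r) => f (M.act t.1 t.2.1 t.2.2)) ∈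
      PF (Sp n s r × (Mat r × Mat r)) := PF.comp hf M.pact
  have hev := General.torus_vanish_conj hl hinj hC hf'
  rw [← hwA] at hev
  have hev' := (M.pword.contDiff.continuous.tendsto w).eventually hev.eventually_nhds
  obtain ⟨w', hw'ev, hw'S⟩ := mem_closure_iff_nhds.1 hwS _ hev'
  refine ⟨w', hw'S, fun x hx hcl hx0 u z => ?_⟩
  let F : ℂ → ℂ := fun v => f (M.flow m u (x v))
  have hF : Differentiable ℂ F :=
    ((PF.contDiff hf).comp ((M.flow_contDiff m).comp (contDiff_const.prodMk hx))).differentiable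
      one_ne_zero
  have hz : ∀ᶠ v in 𝓝 (0 : ℂ), F v = 0 := by
    have hc : Tendsto (fun v => M.word (x v)) (𝓝 0) (𝓝 (M.word w')) := by
      have h' : Continuous (fun v => M.word (x v)) := (M.pword.contDiff.comp hx).continuous
      have := h'.tendsto 0
      rwa [hx0] at this
    filter_upwards [hc.eventually hw'ev] with v hv
    refine hv (M.word_det _ (ClS.subset_hom (hcl v))) (x v) (fun N => ?_) u m
    exact hcl v (fun p => f (M.act p (M.word p ^ N) ((M.word p ^ N).adjugate)))
      (PF.comp hf (M.pact.comp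
        (PMap.id'.prodMk ((M.pword.mpow N).prodMk (M.pword.mpow N).adjugate))))
      fun p hp hi => hvan _
        (M.act_hom p hp _ (by rw [det_pow, M.word_det p hp, one_pow])
          ((Commute.refl _).pow_left N))
        (M.act_int p _ _ hi ((M.word_int p hi).pow N) ((M.word_int p hi).pow N).adjugate)
  exact (show AnalyticOnNhd ℂ F Set.univ from fun v _ => hF.analyticAt v)
    |>.eqOn_zero_of_preconnected_of_eventuallyEq_zero isPreconnected_univ
      (Set.mem_univ (0 : ℂ)) hz (Set.mem_univ z)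

end Vale.Agent.P002.Two
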