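import Vale.Agent.P002.Two.Moves
import Vale.Agent.P002.General.Point

/-! A connected family in the closure of the integral points, through slid integral points. -/

open Matrix Filter Topology NormedSpace

namespace Vale.Agent.P002.Two

open Vale.Agent.P002.Surface (Mat Tup comm rel PF PMap tlPow Generic exists_generic exists_curve
  mul_adj adj_mul det_adj contDiff_mexp)
open Vale.Agent.P002.General (Sp YSp HomS IntS ClS GoodY IntY tailRel adj_adj' rel_two)
open Vale.Agent.P002.Twisted (IntMat IntTup)

attribute [local instance] Matrix.linftyOpNormedAddCommGroup Matrix.linftyOpNormedSpace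
  Matrix.linftyOpNormedRing Matrix.linftyOpNormedAlgebra

variable {r s : ℕ} {R : Subring ℂ} {T : Fin s → Mat r}

/-- An integral handle closing the relation, whose product is diagonal with distinct entries. -/
structure Seed (R : Subring ℂ) (T : Fin s → Mat r) where
  a : Mat r
  b : Mat r
  h : Fin r → ℂ
  a_det : a.det = 1
  b_det : b.det = 1
  h_det : (diagonal h).det = 1
  h_inj : Function.Injective h
  a_int : IntMat R a
  b_int : IntMat R b
  mul_eq : a * b = diagonal h
  close : comm (a, b) * (List.ofFn T).prod = 1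
  T_ok : ∀ i, (T i).det = 1 ∧ IntMat R (T i)

lemma Seed.h_ne (S : Seed R T) (i : Fin r) : S.h i ≠ 0 :=
  Finset.prod_ne_zero_iff.1 (show ∏ i, S.h i ≠ 0 by
    rw [← det_diagonal, S.h_det]; exact one_ne_zero) i (Finset.mem_univ i)

/-- The tail with trivial conjugators. -/
def y0 (s r : ℕ) : YSp 0 s r := (fun i => i.elim0, fun _ => 1)

lemma y0_good : GoodY (y0 s r) := ⟨fun i => i.elim0, fun _ => det_one⟩

lemma y0_int : IntY R (y0 s r) := ⟨fun i => i.elim0, fun _ => IntMat.one⟩

lemma tailRel_y0 : tailRel T (y0 s r) = (List.ofFn T).prod := by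
  have : General.bd T (y0 s r).2 = T := funext fun i => by simp [General.bd, y0]
  rw [tailRel, this, rel, List.ofFn_zero, List.prod_nil, one_mul]

variable (S : Seed R T)

/-- The exponent of the slide. -/
noncomputable def Ex (B : Mat r) (κ : Fin r → ℂ) : Mat r :=
  ∑ m : Fin r, κ m • tlPow ((m : ℕ) + 1) (B.adjugate * diagonal S.h)

/-- The point slid by `k = exp E`, `k' = exp (-E)`. -/
def slid (B k k' : Mat r) : Sp 0 s r := (![(k', k * B * k'), (k * S.a, S.b * k')], y0 s r)

/-- The slid family. -/
noncomputable def pt (B : Mat r) (κ : Fin r → ℂ) : Sp 0 s r :=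
  slid S B (exp (Ex S B κ)) (exp (-Ex S B κ))

/-- The family as a set. -/
noncomputable def ptSet : Set (Sp 0 s r) := {p | ∃ B κ, B.det = 1 ∧ p = pt S B κ}

lemma pmap_slid :
    PMap (fun q : Mat r × (Mat r × Mat r) => slid S q.1 q.2.1 q.2.2) := by
  refine PMap.prodMk (General.PMap.two ?_ ?_) (PMap.const _)
  · exact (PMap.snd.comp PMap.snd).prodMk
      (((PMap.fst.comp PMap.snd).mul PMap.fst).mul (PMap.snd.comp PMap.snd))
  · exact ((PMap.fst.comp PMap.snd).mul (PMap.const _)).prodMk
      ((PMap.const _).mul (PMap.snd.comp PMap.snd))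

lemma contDiff_pt :
    ContDiff ℂ 1 (fun q : Mat r × (Fin r → ℂ) => pt S q.1 q.2) := by
  have hE : ContDiff ℂ 1 (fun q : Mat r × (Fin r → ℂ) => Ex S q.1 q.2) := by
    refine ContDiff.sum fun m _ => ?_
    exact ((contDiff_apply ℂ ℂ m).comp contDiff_snd).smul
      ((((PMap.id'.adjugate).mul (PMap.const _)).tlPow _).contDiff.comp contDiff_fst)
  exact (pmap_slid S).contDiff.comp (contDiff_fst.prodMk
    ((contDiff_mexp.comp hE).prodMk (contDiff_mexp.comp hE.neg)))

lemma pt_zero (B : Mat r) : pt S B 0 = slid S B 1 1 := by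
  simp [pt, Ex]

lemma base_mem_hom {B : Mat r} (hB : B.det = 1) : slid S B 1 1 ∈ HomS T := by
  refine ⟨Fin.forall_fin_two.2 ⟨by simp [slid, hB], by simp [slid, S.a_det, S.b_det]⟩, y0_good, ?_⟩
  show rel ![(1, 1 * B * 1), (1 * S.a, S.b * 1)] * tailRel T (y0 s r) = 1
  rw [rel_two, tailRel_y0]
  show comm (1, 1 * B * 1) * comm (1 * S.a, S.b * 1) * _ = 1
  have e : comm ((1 : Mat r), B) = 1 := by simp [Surface.comm, mul_adj hB]
  rw [one_mul, mul_one, one_mul, mul_one, e, one_mul, S.close]

lemma base_mem_cl {B : Mat r} (hB : B.det = 1) : pt S B 0 ∈ ClS T R := by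
  intro f hf hvan
  rw [pt_zero]
  let Q : Mat r → Prop := fun M => IntMat R M ∧ M.det = 1
  have hp : PMap (fun M : Mat r => slid S M 1 1) :=
    (pmap_slid S).comp (PMap.id'.prodMk (PMap.const ((1 : Mat r), (1 : Mat r))))
  have := Surface.dense_step Q (fun M => f (slid S M 1 1)) (PF.comp hf hp)
    (fun M hM => hvan _ (base_mem_hom S hM.2)
      ⟨Fin.forall_fin_two.2 ⟨⟨IntMat.one, (IntMat.one.mul hM.1).mul IntMat.one⟩,
        ⟨IntMat.one.mul S.a_int, S.b_int.mul IntMat.one⟩⟩, y0_int⟩)
    (fun i j hij n M hM => ⟨(IntMat.transvection i j n).mul hM.1, by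
      rw [det_mul, det_transvection_of_ne _ _ hij, hM.2, mul_one]⟩) B hB 1 ⟨IntMat.one, det_one⟩
  simpa using this

lemma exists_genM : ∃ A : Mat r, GenM A ∧ A.det = 1 := by
  obtain ⟨lam, hl, hinj⟩ := exists_generic r
  exact ⟨diagonal lam, ⟨lam, 1, hl, hinj, det_one, by simp⟩, hl.det⟩

/-- The slide with no substitution. -/
noncomputable def slide0 : Mv T R 0 := slideMv (idS R r, idS R r) T

lemma conn_range {K : Type*} [NormedAddCommGroup K] [NormedSpace ℂ K] {φ : Mat r × K → Sp 0 s r}
    (hφ : ContDiff ℂ 1 φ) : Conn {p | ∃ B κ, B.det = 1 ∧ p = φ (B, κ)} := by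
  rintro p ⟨B, κ, hB, rfl⟩ q ⟨B', κ', hB', rfl⟩
  obtain ⟨c, hc, hcd, hc0, hc1⟩ := exists_curve hB hB'
  refine ⟨fun z => φ (c z, κ + z • (κ' - κ)),
    hφ.comp (hc.prodMk (contDiff_const.add (contDiff_id.smul contDiff_const))),
    fun z => ⟨_, _, hcd z, rfl⟩, by simp [hc0], by simp [hc1]⟩

lemma flow_pt {B : Mat r} (hB : B.det = 1) {κ : Fin r → ℂ} (hpt : pt S B κ ∈ ClS T R) (m : Fin r)
    (u : ℂ) : (slide0 (R := R) (T := T)).flow ((m : ℕ) + 1) u (pt S B κ) =
      pt S B (κ + Pi.single m u) := by
  set E := Ex S B κ with hE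
  set W := B.adjugate * diagonal S.h with hW
  have hcE : Commute E W := by
    refine Commute.sum_left _ _ _ fun i _ => Commute.smul_left ?_ _
    rw [tlPow]
    exact ((Commute.refl W).pow_left _).sub_left (((Commute.one_left W).smul_left _))
  have hk'd : (exp (-E)).det = 1 := ((ClS.subset_hom hpt).1 0).1
  have hkk : exp E * exp (-E) = (1 : Mat r) := by
    rw [← Matrix.exp_add_of_commute _ _ ((Commute.refl E).neg_right), add_neg_cancel, exp_zero]
  have hka : (exp (-E)).adjugate = exp E := (left_inv_eq_right_inv hkk (mul_adj hk'd)).symm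
  have hkd : (exp E).det = 1 := by rw [← hka, det_adj hk'd]
  have hka' : (exp E).adjugate = exp (-E) := left_inv_eq_right_inv (adj_mul hkd) hkk
  have hword : (slide0 (R := R) (T := T)).word (pt S B κ) = W := by
    show (exp E * B * exp (-E)).adjugate * (exp E * S.a) * (S.b * exp (-E)) = W
    rw [adjugate_mul_distrib, adjugate_mul_distrib, hka, hka']
    have hcexp : Commute (exp E) W := hcE.exp_left
    calc exp E * (B.adjugate * exp (-E)) * (exp E * S.a) * (S.b * exp (-E))
        = exp E * B.adjugate * (exp (-E) * exp E) * (S.a * S.b) * exp (-E) := by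
          simp only [mul_assoc]
      _ = exp E * W * exp (-E) := by
          rw [← hka', adj_mul hkd, mul_one, S.mul_eq, hW]; simp only [mul_assoc]
      _ = W := by rw [hcexp.eq, mul_assoc, hkk, mul_one]
  set G := u • tlPow ((m : ℕ) + 1) W with hG
  have hE' : Ex S B (κ + Pi.single m u) = G + E := by
    simp only [Ex, hE, hG, Pi.add_apply, add_smul, Finset.sum_add_distrib]
    rw [add_comm, Finset.sum_eq_single m (fun i _ hi => by simp [hi]) (by simp), Pi.single_eq_same]
  have hcG : Commute G E := by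
    refine Commute.smul_left ?_ _
    rw [tlPow]
    exact ((hcE.symm.pow_left _).sub_left (((Commute.one_left E).smul_left _)))
  show (slide0 (R := R) (T := T)).act _ (exp (u • tlPow _ _)) (exp (-(u • tlPow _ _))) = _
  rw [hword, ← hG]
  simp only [pt, hE', ← hE]
  rw [neg_add, Matrix.exp_add_of_commute _ _ hcG,
    show exp (-G + -E) = exp (-E) * exp (-G) by
      rw [← Matrix.exp_add_of_commute _ _ (hcG.symm.neg_left.neg_right)]; congr 1; abel]
  refine Prod.ext (funext fun i => ?_) rfl
  refine Fin.cases ?_ (fun i => ?_) i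
  · show (exp (-E) * exp (-G), exp G * (exp E * B * exp (-E)) * exp (-G)) = _
    refine Prod.ext rfl ?_
    show _ = exp G * exp E * B * (exp (-E) * exp (-G))
    simp only [mul_assoc]
  · obtain rfl : i = 0 := Subsingleton.elim _ _
    show (exp G * (exp E * S.a), S.b * exp (-E) * exp (-G)) = _
    exact Prod.ext (mul_assoc _ _ _).symm (mul_assoc _ _ _)

lemma slide0_word (B k k' : Mat r) : (slide0 (R := R) (T := T)).word (slid S B k k') =
    (k * B * k').adjugate * (k * S.a) * (S.b * k') := rfl

lemma base_witness : ∃ w ∈ closure {p : Sp 0 s r | ∃ B : Mat r, B.det = 1 ∧ p = pt S B 0},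
    GenM ((slide0 (R := R) (T := T)).word w) := by
  obtain ⟨A, hA, hAd⟩ := exists_genM (r := r)
  refine ⟨pt S (diagonal S.h * A.adjugate) 0,
    subset_closure ⟨_, by rw [det_mul, S.h_det, det_adj hAd, one_mul], rfl⟩, ?_⟩
  have e : (slide0 (R := R) (T := T)).word (pt S (diagonal S.h * A.adjugate) 0) = A := by
    rw [pt_zero, slide0_word, one_mul, mul_one, one_mul, mul_one, mul_assoc, S.mul_eq,
      adjugate_mul_distrib, adj_adj' hAd, mul_assoc, adj_mul S.h_det, mul_one]
  rw [e]
  exact hA

attribute [local irreducible] pt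

lemma pt_mem_cl {B : Mat r} (hB : B.det = 1) (κ : Fin r → ℂ) : pt S B κ ∈ ClS T R := by
  classical
  suffices H : ∀ I : Finset (Fin r), ∀ B : Mat r, B.det = 1 → ∀ κ : Fin r → ℂ,
      (∀ i ∉ I, κ i = 0) → pt S B κ ∈ ClS T R from H Finset.univ B hB κ (by simp)
  intro I
  induction I using Finset.induction_on with
  | empty =>
    intro B hB κ hκ
    obtain rfl : κ = 0 := funext fun i => hκ i (by simp)
    exact base_mem_cl S hB
  | insert m I hm ih =>
    intro B hB κ hκ
    set κ' := Function.update κ m 0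
    have hκ' : ∀ i ∉ I, κ' i = 0 := fun i hi => by
      by_cases h : i = m
      · subst h; simp [κ']
      · rw [show κ' i = κ i by simp [κ', h]]; exact hκ i (by simp [h, hi])
    have e : κ = κ' + Pi.single m (κ m) := by
      funext i
      by_cases h : i = m
      · subst h; simp [κ']
      · simp [κ', h]
    have hwit := base_witness S
    intro f hf hvan
    obtain ⟨w, ⟨Bw, hBw, rfl⟩, hw⟩ := (Mv.nice _ hwit ((m : ℕ) + 1)).2.2 f hf hvan
    obtain ⟨c, hc, hcd, hc0, hc1⟩ := exists_curve hBw hB
    have hline : ContDiff ℂ 1 (fun z : ℂ => pt S (c z) (z • κ')) :=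
      ContDiff.comp (g := fun q : Mat r × (Fin r → ℂ) => pt S q.1 q.2) (contDiff_pt S)
        (hc.prodMk (contDiff_id.smul contDiff_const))
    have := hw (fun z => pt S (c z) (z • κ')) hline
      (fun z => ih (c z) (hcd z) _ fun i hi => by simp [hκ' i hi]) (by simp [hc0]) (κ m) 1
    simp only [hc1, one_smul] at this
    rw [flow_pt S hB (ih B hB κ' hκ'), ← e] at this
    exact this

lemma ptSet_sub : ptSet S ⊆ ClS T R := by
  rintro p ⟨B, κ, hB, rfl⟩; exact pt_mem_cl S hB κ

lemma ptSet_conn : Conn (ptSet S) := conn_range (contDiff_pt S)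

/-- A matrix of determinant one is a limit of ones with distinct eigenvalues. -/
lemma regular_dense {t : Mat r} (ht : t.det = 1) :
    t ∈ closure {A : Mat r | A.det = 1 ∧ ∃ (V : Mat r) (l : Fin r → ℂ), V.det = 1 ∧
      Function.Injective l ∧ A = V * diagonal l * V.adjugate} := by
  obtain ⟨C, U, hC, htU, hJ, -⟩ := General.exists_jordan t
  have hU : U.BlockTriangular id := by
    intro i j hij
    by_contra hne
    have hij' : j < i := hij
    have := (hJ i j hij'.ne' hne).1
    rw [Fin.lt_def] at hij'; omega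
  have hUd : U.det = 1 := by
    rw [htU, det_mul, det_mul, det_adj hC, hC] at ht; simpa using ht
  have hUi : ∀ i, U i i ≠ 0 := fun i => Finset.prod_ne_zero_iff.1
    (show ∏ i, U i i ≠ 0 by rw [← det_of_isUpperTriangular hU, hUd]; exact one_ne_zero) i
    (Finset.mem_univ i)
  let c : ℂ := (∑ i : Fin r, ((i : ℕ) : ℂ)) / r
  let ψ : ℂ → Mat r := fun e =>
    C * (U * diagonal fun i : Fin r => Complex.exp (e * ((i : ℕ) - c))) * C.adjugate
  have hψ : Tendsto ψ (𝓝[≠] 0) (𝓝 t) := by
    have hd : Continuous fun e : ℂ => (diagonal fun i : Fin r => Complex.exp (e * ((i : ℕ) - c)) : Mat r) :=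
      Continuous.matrix_diagonal (continuous_pi fun i => by fun_prop)
    have hc : Continuous ψ := (continuous_const.mul (continuous_const.mul hd)).mul continuous_const
    have := hc.tendsto 0
    rw [show ψ 0 = t by simp [ψ, htU]] at this
    exact this.mono_left nhdsWithin_le_nhds
  refine mem_closure_of_tendsto hψ ?_
  have hdist : ∀ᶠ e in 𝓝[≠] (0 : ℂ), Function.Injective fun i : Fin r =>
      U i i * Complex.exp (e * ((i : ℕ) - c)) := by
    have : ∀ i k : Fin r, ∀ᶠ e in 𝓝[≠] (0 : ℂ), i ≠ k →
        U i i * Complex.exp (e * ((i : ℕ) - c)) ≠ U k k * Complex.exp (e * ((k : ℕ) - c)) := by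
      intro i k
      rcases eq_or_ne i k with h | h
      · exact Eventually.of_forall fun e h' => absurd h h'
      by_cases hU' : U i i = U k k
      · have hne : ((i : ℕ) : ℂ) - k ≠ 0 := sub_ne_zero.2 fun e => h (Fin.ext (by exact_mod_cast e))
        have hsmall : ∀ᶠ e in 𝓝 (0 : ℂ), ‖e * (((i : ℕ) : ℂ) - k)‖ < 1 := by
          have : Continuous fun e : ℂ => ‖e * (((i : ℕ) : ℂ) - k)‖ := by fun_prop
          exact this.continuousAt.eventually (eventually_lt_nhds (by simp))
        filter_upwards [hsmall.filter_mono nhdsWithin_le_nhds, self_mem_nhdsWithin] with e he he0 _ heq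
        rw [hU'] at heq
        have h1 := mul_left_cancel₀ (hUi k) heq
        obtain ⟨n, hn⟩ := Complex.exp_eq_exp_iff_exists_int.1 h1
        have hprod : e * (((i : ℕ) : ℂ) - k) = n * (2 * Real.pi * Complex.I) := by
          linear_combination hn
        rw [hprod] at he
        rcases eq_or_ne n 0 with rfl | hn0
        · simp only [Int.cast_zero, zero_mul, mul_eq_zero] at hprod
          exact hne (hprod.resolve_left he0)
        · simp only [norm_mul, Complex.norm_intCast, Complex.norm_ofNat, Complex.norm_I, mul_one,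
            Complex.norm_real, Real.norm_eq_abs, abs_of_pos Real.pi_pos] at he
          have : (1 : ℝ) ≤ |(n : ℝ)| := by exact_mod_cast Int.one_le_abs hn0
          nlinarith [Real.pi_gt_three]
      · have hc : Continuous fun e : ℂ => U i i * Complex.exp (e * ((i : ℕ) - c)) -
            U k k * Complex.exp (e * ((k : ℕ) - c)) := by fun_prop
        exact ((hc.continuousAt.eventually_ne (by simpa [sub_eq_zero] using hU')).filter_mono
          nhdsWithin_le_nhds).mono fun e he _ h' => he (sub_eq_zero.2 h')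
    filter_upwards [eventually_all.2 fun i => eventually_all.2 (this i)] with e he i k hik
    by_contra hne
    exact he i k hne hik
  filter_upwards [hdist] with e he
  set d := fun i : Fin r => Complex.exp (e * ((i : ℕ) - c))
  have hdd : (diagonal d).det = 1 := by
    rw [det_diagonal, ← Complex.exp_sum, ← Finset.mul_sum, Finset.sum_sub_distrib, Finset.sum_const,
      Finset.card_univ, Fintype.card_fin, nsmul_eq_mul]
    rcases Nat.eq_zero_or_pos r with h0 | h0
    · subst h0; simp
    · have : (r : ℂ) ≠ 0 := by exact_mod_cast h0.ne'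
      simp [c, mul_div_cancel₀ _ this]
  have hUd' : (U * diagonal d).BlockTriangular id := hU.mul (blockTriangular_diagonal d)
  obtain ⟨X, hX, hXe, -⟩ := General.diagonalise (R := (⊥ : Subring ℂ)) hUd' fun i k h => he (by
    simpa [Matrix.mul_diagonal, d] using h)
  refine ⟨by simp [ψ, det_mul, det_adj hC, hC, hUd, (det_diagonal (d := d)).symm.trans hdd, det_diagonal, d],
    C * X, fun i => (U * diagonal d) i i, by rw [det_mul, hC, hX, one_mul], fun i k h => he (by
      simpa [Matrix.mul_diagonal, d] using h), ?_⟩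
  show C * (U * diagonal d) * C.adjugate = _
  conv_lhs => rw [hXe]
  simp only [adjugate_mul_distrib, mul_assoc]

/-- Exponentials of traceless powers of a regular semisimple matrix fill its torus. -/
lemma exists_exponent {V : Mat r} (hV : V.det = 1) {w e : Fin r → ℂ} (hw : Function.Injective w)
    (hw0 : ∀ i, w i ≠ 0) (he : ∏ i, e i = 1) :
    ∃ κ : Fin r → ℂ,
      exp (∑ m : Fin r, κ m • tlPow ((m : ℕ) + 1) (V * diagonal w * V.adjugate)) =
        V * diagonal e * V.adjugate ∧
      exp (-∑ m : Fin r, κ m • tlPow ((m : ℕ) + 1) (V * diagonal w * V.adjugate)) =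
        V * diagonal (fun i => (e i)⁻¹) * V.adjugate := by
  rcases Nat.eq_zero_or_pos r with h0 | h0
  · subst h0; exact ⟨0, Subsingleton.elim _ _, Subsingleton.elim _ _⟩
  have hr : (r : ℂ) ≠ 0 := by exact_mod_cast h0.ne'
  have he0 : ∀ i, e i ≠ 0 := fun i => Finset.prod_ne_zero_iff.1
    (show ∏ i, e i ≠ 0 by rw [he]; exact one_ne_zero) i (Finset.mem_univ i)
  let i0 : Fin r := ⟨0, h0⟩
  let z : Fin r → ℂ := Function.update (fun i => Complex.log (e i)) i0
    (-∑ i ∈ Finset.univ.erase i0, Complex.log (e i))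
  have hzsum : ∑ i, z i = 0 := by
    rw [← Finset.add_sum_erase _ _ (Finset.mem_univ i0)]
    simp only [z, Function.update_self]
    rw [Finset.sum_congr rfl fun i hi => Function.update_of_ne (Finset.ne_of_mem_erase hi) _ _,
      neg_add_cancel]
  have hz : ∀ i, Complex.exp (z i) = e i := by
    intro i
    by_cases hi : i = i0
    · subst hi
      have h1 : ∏ k, Complex.exp (z k) = 1 := by rw [← Complex.exp_sum, hzsum, Complex.exp_zero]
      rw [← Finset.mul_prod_erase _ _ (Finset.mem_univ i0)] at h1 he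
      have h2 : ∏ k ∈ Finset.univ.erase i0, Complex.exp (z k) = ∏ k ∈ Finset.univ.erase i0, e k :=
        Finset.prod_congr rfl fun k hk => by
          simp [z, Finset.ne_of_mem_erase hk, Complex.exp_log (he0 k)]
      rw [h2] at h1
      exact mul_right_cancel₀ (Finset.prod_ne_zero_iff.2 fun k _ => he0 k) (h1.trans he.symm)
    · simp [z, hi, Complex.exp_log (he0 i)]
  let A : Mat r := diagonal w * Matrix.vandermonde w
  have hA : IsUnit A.det := by
    rw [det_mul, det_diagonal]
    exact (mul_ne_zero (Finset.prod_ne_zero_iff.2 fun i _ => hw0 i)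
      (Matrix.det_vandermonde_ne_zero_iff.2 hw)).isUnit
  let κ : Fin r → ℂ := A⁻¹ *ᵥ z
  have hκ : ∀ i, ∑ m : Fin r, κ m * w i ^ ((m : ℕ) + 1) = z i := fun i => by
    have h1 : (A *ᵥ κ) i = z i := by
      simp only [κ, mulVec_mulVec, Matrix.mul_nonsing_inv A hA, one_mulVec]
    rw [← h1]
    simp only [A, mulVec, dotProduct, diagonal_mul, vandermonde_apply, pow_succ]
    exact Finset.sum_congr rfl fun m _ => by ring
  have hV' := adj_mul hV
  have htl : ∀ m : ℕ, tlPow m (V * diagonal w * V.adjugate) =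
      V * diagonal (fun i => w i ^ m - (∑ k, w k ^ m) / r) * V.adjugate := fun m => by
    rw [tlPow, General.pow_conj hV, trace_mul_cycle, hV', one_mul, diagonal_pow, trace_diagonal]
    simp only [Pi.pow_apply]
    rw [show diagonal (fun i => w i ^ m - (∑ k, w k ^ m) / r) =
        diagonal (w ^ m) - ((∑ k, w k ^ m) / (r : ℂ)) • (1 : Mat r) by
      ext i j; by_cases h : i = j
      · subst h; simp
      · simp [h], mul_sub, sub_mul, mul_smul_comm, mul_one, smul_mul_assoc, mul_adj hV]
  have hsum : ∑ m : Fin r, κ m • tlPow ((m : ℕ) + 1) (V * diagonal w * V.adjugate) =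
      V * diagonal z * V.adjugate := by
    have hzd : diagonal z = ∑ m : Fin r,
        κ m • diagonal (fun i => w i ^ ((m : ℕ) + 1) - (∑ k, w k ^ ((m : ℕ) + 1)) / r) := by
      ext i j
      rw [Matrix.sum_apply]
      by_cases h : i = j
      · subst h
        simp only [diagonal_apply_eq, Matrix.smul_apply, smul_eq_mul, mul_sub,
          Finset.sum_sub_distrib, hκ]
        simp only [← mul_div_assoc, ← Finset.sum_div, Finset.mul_sum]
        rw [Finset.sum_comm]
        simp only [hκ, hzsum, zero_div, sub_zero]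
      · simp [h]
    rw [hzd, Matrix.mul_sum, Matrix.sum_mul]
    exact Finset.sum_congr rfl fun m _ => by rw [htl, mul_smul_comm, smul_mul_assoc]
  refine ⟨κ, ?_, ?_⟩
  · rw [hsum, General.exp_conj' hV, Matrix.exp_diagonal]
    congr 3
    funext i
    rw [← hz]
    simp [Complex.exp_eq_exp_ℂ]
  · rw [hsum, show -(V * diagonal z * V.adjugate) = V * diagonal (-z) * V.adjugate by
      rw [show diagonal (-z) = -diagonal z from (diagonal_neg z).symm, mul_neg, neg_mul],
      General.exp_conj' hV, Matrix.exp_diagonal]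
    congr 3
    funext i
    rw [← hz, ← Complex.exp_neg]
    simp [Complex.exp_eq_exp_ℂ]

/-- The integral-type points `((t, t⁻¹ u t t), (t⁻¹ a, b t))`. -/
def Dp (t : Mat r) : Sp 0 s r :=
  (![(t, t.adjugate * (diagonal S.h * t) * t), (t.adjugate * S.a, S.b * t)], y0 s r)

lemma pmap_Dp : PMap (fun t : Mat r => Dp S t) := by
  have hi : PMap (fun t : Mat r => t) := PMap.id'
  refine PMap.prodMk (General.PMap.two ?_ ?_) (PMap.const _)
  · exact hi.prodMk ((hi.adjugate.mul ((PMap.const _).mul hi)).mul hi)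
  · exact (hi.adjugate.mul (PMap.const _)).prodMk ((PMap.const _).mul hi)

lemma Dp_mem {t : Mat r} (ht : t.det = 1) : Dp S t ∈ closure (ptSet S) := by
  refine map_mem_closure (pmap_Dp S).contDiff.continuous (regular_dense ht) ?_
  rintro A ⟨hA, V, l, hV, hl, rfl⟩
  have hl0 : ∏ i, l i = 1 := by
    rw [← det_diagonal]
    rwa [det_mul, det_mul, hV, det_adj hV, one_mul, mul_one] at hA
  have hln : ∀ i, l i ≠ 0 := fun i => Finset.prod_ne_zero_iff.1
    (show ∏ i, l i ≠ 0 by rw [hl0]; exact one_ne_zero) i (Finset.mem_univ i)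
  have hwi : Function.Injective fun i => (l i)⁻¹ := fun i k h => hl (inv_injective h)
  obtain ⟨κ, h1, h2⟩ := exists_exponent hV hwi (fun i => inv_ne_zero (hln i))
    (e := fun i => (l i)⁻¹) (by rw [Finset.prod_inv_distrib, hl0, inv_one])
  have hadj : (V * diagonal l * V.adjugate).adjugate =
      V * diagonal (fun i => (l i)⁻¹) * V.adjugate := by
    refine left_inv_eq_right_inv (adj_mul hA) ?_
    calc V * diagonal l * V.adjugate * (V * diagonal (fun i => (l i)⁻¹) * V.adjugate)
        = V * (diagonal l * (V.adjugate * V) * diagonal (fun i => (l i)⁻¹)) * V.adjugate := by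
          simp only [mul_assoc]
      _ = 1 := by
          rw [adj_mul hV, mul_one, diagonal_mul_diagonal]
          simp [hln, mul_adj hV]
  refine ⟨diagonal S.h * (V * diagonal l * V.adjugate), κ,
    by rw [det_mul, S.h_det, hA, one_mul], ?_⟩
  have hW : (diagonal S.h * (V * diagonal l * V.adjugate)).adjugate * diagonal S.h =
      V * diagonal (fun i => (l i)⁻¹) * V.adjugate := by
    rw [adjugate_mul_distrib, mul_assoc, adj_mul S.h_det, mul_one, hadj]
  simp only [pt, Ex, hW, h1, h2, inv_inv, slid, Dp, hadj]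

lemma Dp_mem_hom {t : Mat r} (ht : t.det = 1) : Dp S t ∈ HomS T :=
  ClS.subset_hom (closure_minimal (ptSet_sub S) isClosed_clS (Dp_mem S ht))

end Vale.Agent.P002.Two
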