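import Vale.Agent.P002.Two.OneHandle
import Vale.Agent.P002.Two.Algebra
import Vale.Agent.P002.Two.Pt
import Vale.Agent.P002.Global.Zeros
import Vale.Agent.P002.Global.Defs

/-! A point of the family where both handles have enough directions. -/

open Matrix Filter Topology Module

namespace Vale.Agent.P002.Two

open Vale.Agent.P002.Surface (Mat Tup PMap tlPow mul_adj adj_mul det_adj exists_curve)
open Vale.Agent.P002.General (adj_adj')

attribute [local instance] Matrix.linftyOpNormedAddCommGroup Matrix.linftyOpNormedSpace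
  Matrix.linftyOpNormedRing Matrix.linftyOpNormedAlgebra

variable {r s : ℕ} {R : Subring ℂ} {T : Fin s → Mat r}

/-- Products of pairs of the generators of `U`. -/
noncomputable def PP (a b : Mat r) : Submodule ℂ (Mat r) :=
  Submodule.span ℂ (Set.range fun q : (ℕ × ℕ) × (ℕ × ℕ) =>
    a * (b * a ^ (q.1.1 + 2)) ^ (q.1.2 + 1) * (a * (b * a ^ (q.2.1 + 2)) ^ (q.2.2 + 1)))

lemma conj_spans {C : Mat r} (hC : C.det = 1) (a b : Mat r) :
    Pw (conjE C hC a) = (Pw a).map (conjE C hC).toLinearMap ∧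
    Zs (conjE C hC a) (conjE C hC b) = (Zs a b).map (conjE C hC).toLinearMap ∧
    U (conjE C hC a) (conjE C hC b) = (U a b).map (conjE C hC).toLinearMap ∧
    U (conjE C hC a) (conjE C hC b) ⊔ Submodule.span ℂ {(1 : Mat r)} =
      (U a b ⊔ Submodule.span ℂ {(1 : Mat r)}).map (conjE C hC).toLinearMap ∧
    PP (conjE C hC a) (conjE C hC b) = (PP a b).map (conjE C hC).toLinearMap := by
  have h3 : U (conjE C hC a) (conjE C hC b) = (U a b).map (conjE C hC).toLinearMap := by
    simp only [U, Submodule.map_span, ← Set.range_comp]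
    refine congrArg _ (congrArg _ (funext fun q => ?_))
    simp only [conjE_pow, conjE_mul]
    rfl
  refine ⟨?_, ?_, h3, ?_, ?_⟩
  · simp only [Pw, Submodule.map_span, ← Set.range_comp]
    refine congrArg _ (congrArg _ (funext fun m => ?_))
    exact conjE_tlPow hC m _
  · simp only [Zs, Submodule.map_span, ← Set.range_comp]
    refine congrArg _ (congrArg _ (funext fun q => ?_))
    simp only [conjE_pow, conjE_mul, conjE_tlPow]
    rfl
  · rw [Submodule.map_sup, h3, Submodule.map_span, Set.image_singleton]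
    exact congrArg (fun X : Mat r => _ ⊔ Submodule.span ℂ {X}) (conjE_one hC).symm
  · simp only [PP, Submodule.map_span, ← Set.range_comp]
    refine congrArg _ (congrArg _ (funext fun q => ?_))
    simp only [conjE_pow, conjE_mul]
    rfl

lemma good0_conj {C a b : Mat r} (hC : C.det = 1) (h : Good0 a b) :
    Good0 (C * a * C.adjugate) (C * b * C.adjugate) := by
  obtain ⟨e1, e2, -, e4, -⟩ := conj_spans hC a b
  obtain ⟨g1, g2, g3⟩ := h
  show Good0 (conjE C hC a) (conjE C hC b)
  refine ⟨?_, ?_, ?_⟩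
  · rwa [e1, LinearEquiv.finrank_map_eq]
  · rwa [e2, LinearEquiv.finrank_map_eq]
  · rwa [e4, LinearEquiv.finrank_map_eq]

lemma good1_conj {C a b : Mat r} (hC : C.det = 1) (h : Good1 a b) :
    Good1 (C * a * C.adjugate) (C * b * C.adjugate) := by
  obtain ⟨e1, e2, e3, -, -⟩ := conj_spans hC a b
  obtain ⟨g1, g2, g3, g4⟩ := h
  show Good1 (conjE C hC a) (conjE C hC b)
  refine ⟨?_, ?_, ?_, fun x y hxy => ?_⟩
  · rwa [e1, LinearEquiv.finrank_map_eq]
  · rwa [e2, LinearEquiv.finrank_map_eq]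
  · rwa [e3, LinearEquiv.finrank_map_eq]
  · rcases g4 (C.adjugate *ᵥ x) (y ᵥ* C) (fun w hw => by
      have := hxy (conjE C hC w) (e3 ▸ Submodule.mem_map_of_mem hw)
      rw [show conjE C hC w = C * (w * C.adjugate) from mul_assoc _ _ _, ← mulVec_mulVec,
        ← mulVec_mulVec, dotProduct_mulVec] at this
      exact this) with k | k
    · refine Or.inl ?_
      have := congrArg (C *ᵥ ·) k
      simpa [mulVec_mulVec, mul_adj hC] using this
    · refine Or.inr ?_
      have := congrArg (· ᵥ* C.adjugate) k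
      simpa [vecMul_vecMul, mul_adj hC] using this

lemma pp_conj {C a b : Mat r} (hC : C.det = 1) (h : r * r ≤ finrank ℂ (PP a b)) :
    r * r ≤ finrank ℂ (PP (C * a * C.adjugate) (C * b * C.adjugate)) := by
  obtain ⟨-, -, -, -, e5⟩ := conj_spans hC a b
  show r * r ≤ finrank ℂ (PP (conjE C hC a) (conjE C hC b))
  rwa [e5, LinearEquiv.finrank_map_eq]

lemma pp_full (hr : 2 ≤ r) {a b : Mat r} (h : Good1 a b) : r * r ≤ finrank ℂ (PP a b) := by
  have htop : PP a b = ⊤ := by
    rw [eq_top_iff, ← prod_span hr h.2.2.1 h.2.2.1 h.2.2.2, Submodule.span_le]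
    rintro _ ⟨Y, hY, X, hX, rfl⟩
    rw [U] at hY hX
    show Y * X ∈ PP a b
    induction hY using Submodule.span_induction with
    | mem Y hY =>
      induction hX using Submodule.span_induction with
      | mem X hX =>
        obtain ⟨p, rfl⟩ := hY
        obtain ⟨q, rfl⟩ := hX
        exact Submodule.subset_span ⟨(p, q), rfl⟩
      | zero => rw [mul_zero]; exact zero_mem _
      | add x y _ _ hx hy => rw [mul_add]; exact add_mem hx hy
      | smul c x _ hx => rw [mul_smul_comm]; exact Submodule.smul_mem _ c hx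
    | zero => rw [zero_mul]; exact zero_mem _
    | add x y _ _ hx hy => rw [add_mul]; exact add_mem hx hy
    | smul c x _ hx => rw [smul_mul_assoc]; exact Submodule.smul_mem _ c hx
  rw [htop, finrank_top]
  simp [Module.finrank_matrix]

lemma pp_irr {a b : Mat r} (h : r * r ≤ finrank ℂ (PP a b)) : Global.IrrPair (a, b) := by
  show Algebra.adjoin ℂ _ = ⊤
  have hle : PP a b ≤ Subalgebra.toSubmodule (Algebra.adjoin ℂ ({a, b} : Set (Mat r))) := by
    refine Submodule.span_le.2 ?_
    rintro _ ⟨q, rfl⟩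
    have ha : a ∈ Algebra.adjoin ℂ ({a, b} : Set (Mat r)) := Algebra.subset_adjoin (Or.inl rfl)
    have hb : b ∈ Algebra.adjoin ℂ ({a, b} : Set (Mat r)) := Algebra.subset_adjoin (Or.inr rfl)
    rw [SetLike.mem_coe, Subalgebra.mem_toSubmodule]
    exact mul_mem (mul_mem ha (pow_mem (mul_mem hb (pow_mem ha _)) _))
      (mul_mem ha (pow_mem (mul_mem hb (pow_mem ha _)) _))
  have htop : PP a b = ⊤ := Submodule.eq_top_of_finrank_eq
    (le_antisymm (Submodule.finrank_le _) (by rwa [Module.finrank_matrix, Fintype.card_fin,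
      Module.finrank_self, mul_one]))
  rw [eq_top_iff]
  intro M _
  exact hle (htop ▸ Submodule.mem_top)

/-- Where an entire family of vectors spans less than somewhere else is countable. -/
lemma countable_drop {ι : Type*} {v : ℂ → ι → Mat r} (hv : ∀ i, Differentiable ℂ fun z => v z i)
    {z₀ : ℂ} {k : ℕ} (h : k ≤ finrank ℂ (Submodule.span ℂ (Set.range (v z₀)))) :
    {z | finrank ℂ (Submodule.span ℂ (Set.range (v z))) < k}.Countable := by
  obtain ⟨f, hf, -, hli⟩ := Submodule.exists_fun_fin_finrank_span_eq ℂ (Set.range (v z₀))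
  choose sel hsel using hf
  obtain ⟨L, hL⟩ := (Fintype.linearCombination ℂ f).exists_leftInverse_of_injective
    (LinearMap.ker_eq_bot.2 hli.fintypeLinearCombination_injective)
  let P : Mat r →ₗ[ℂ] (Fin k → ℂ) := (LinearMap.funLeft ℂ ℂ (Fin.castLE h)).comp L
  let D : ℂ → ℂ := fun z =>
    (Matrix.of fun i j : Fin k => P (v z (sel (Fin.castLE h j))) i).det
  have hD : Differentiable ℂ D := by
    intro z
    refine Global.diff_det (Global.diff_mat fun i j => ?_)
    exact (((LinearMap.proj i : (Fin k → ℂ) →ₗ[ℂ] ℂ).comp P).toContinuousLinearMap.differentiableAt).comp z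
      (hv (sel (Fin.castLE h j)) z)
  have hD0 : D z₀ ≠ 0 := by
    have e : (Matrix.of fun i j : Fin k => P (v z₀ (sel (Fin.castLE h j))) i) = 1 := by
      ext i j
      have hj := LinearMap.congr_fun hL (Pi.single (Fin.castLE h j) 1)
      rw [LinearMap.comp_apply, Fintype.linearCombination_apply_single, one_smul] at hj
      rw [Matrix.of_apply, hsel]
      show L (f (Fin.castLE h j)) (Fin.castLE h i) = _
      rw [hj, Matrix.one_apply, LinearMap.id_apply, Pi.single_apply]
      simp [(Fin.castLE_injective h).eq_iff]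
    show Matrix.det _ ≠ 0
    rw [e, det_one]; exact one_ne_zero
  refine (Global.countable_zeros hD hD0).mono fun z hz => by_contra fun hne => ?_
  have hli' : LinearIndependent ℂ fun j : Fin k => v z (sel (Fin.castLE h j)) :=
    LinearIndependent.of_comp P (Matrix.linearIndependent_cols_of_det_ne_zero hne)
  have hle : Submodule.span ℂ (Set.range fun j : Fin k => v z (sel (Fin.castLE h j))) ≤
      Submodule.span ℂ (Set.range (v z)) :=
    Submodule.span_mono (Set.range_subset_iff.2 fun j => ⟨_, rfl⟩)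
  have hc := finrank_span_eq_card hli'
  have := Submodule.finrank_mono hle
  rw [hc, Fintype.card_fin] at this
  exact absurd this (not_le.2 hz)

lemma diff_mul {A B : ℂ → Mat r} (hA : Differentiable ℂ A) (hB : Differentiable ℂ B) :
    Differentiable ℂ fun z => A z * B z := hA.mul hB

lemma diff_tlPow {A : ℂ → Mat r} (hA : Differentiable ℂ A) (m : ℕ) :
    Differentiable ℂ fun z => tlPow m (A z) :=
  (((PMap.id' (T := Mat r)).tlPow m).contDiff.differentiable one_ne_zero).comp hA

lemma range_option {ι V : Type*} [AddCommGroup V] [Module ℂ V] (f : ι → V) (e : V) :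
    Submodule.span ℂ (Set.range f) ⊔ Submodule.span ℂ {e} =
      Submodule.span ℂ (Set.range fun o : Option ι => o.elim e f) := by
  rw [← Submodule.span_union]
  congr 1
  ext x
  simp only [Set.mem_union, Set.mem_range, Set.mem_singleton_iff, Option.exists, Option.elim_none,
    Option.elim_some]
  tauto

variable {a b : ℂ → Mat r} (ha : Differentiable ℂ a) (hb : Differentiable ℂ b)

include ha hb in
lemma diff_gen (i m : ℕ) : Differentiable ℂ fun z => a z * (b z * a z ^ i) ^ m :=
  diff_mul ha ((diff_mul hb (ha.pow i)).pow m)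

include ha hb in
lemma countable_good0 {z₀ : ℂ} (h : Good0 (a z₀) (b z₀)) :
    {z | ¬ Good0 (a z) (b z)}.Countable := by
  obtain ⟨g1, g2, g3⟩ := h
  rw [U, range_option] at g3
  have c1 := countable_drop (v := fun z m => tlPow m (a z)) (fun m => diff_tlPow ha m) g1
  have c2 := countable_drop (v := fun z (q : ℕ × ℕ) => tlPow (q.2 + 1) (b z * a z ^ (q.1 + 2)))
    (fun q => diff_tlPow (diff_mul hb (ha.pow _)) _) g2
  have c3 := countable_drop
    (v := fun z (o : Option (ℕ × ℕ)) => o.elim (1 : Mat r) fun q => a z * (b z * a z ^ (q.1 + 2)) ^ (q.2 + 1))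
    (fun o => by cases o with
      | none => exact differentiable_const _
      | some q => exact diff_gen ha hb _ _) g3
  refine ((c1.union c2).union c3).mono fun z hz => ?_
  by_contra hh
  simp only [Set.mem_union, Set.mem_setOf_eq, not_or, not_lt] at hh
  refine hz ⟨hh.1.1, hh.1.2, ?_⟩
  rw [U, range_option]; exact hh.2

include ha hb in
lemma countable_pp {z₀ : ℂ} (h : r * r ≤ finrank ℂ (PP (a z₀) (b z₀))) :
    {z | finrank ℂ (PP (a z) (b z)) < r * r}.Countable :=
  countable_drop (v := fun z (q : (ℕ × ℕ) × (ℕ × ℕ)) =>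
    a z * (b z * a z ^ (q.1.1 + 2)) ^ (q.1.2 + 1) * (a z * (b z * a z ^ (q.2.1 + 2)) ^ (q.2.2 + 1)))
    (fun _ => diff_mul (diff_gen ha hb _ _) (diff_gen ha hb _ _)) h

include ha hb in
lemma good1_near {z₀ : ℂ} (h : Good1 (a z₀) (b z₀)) :
    ∃ W ∈ 𝓝 z₀, {z ∈ W | ¬ Good1 (a z) (b z)}.Countable := by
  obtain ⟨g1, g2, g3, g4⟩ := h
  have c1 := countable_drop (v := fun z m => tlPow m (a z)) (fun m => diff_tlPow ha m) g1
  have c2 := countable_drop (v := fun z (q : ℕ × ℕ) => tlPow (q.2 + 1) (b z * a z ^ (q.1 + 2)))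
    (fun q => diff_tlPow (diff_mul hb (ha.pow _)) _) g2
  have c3 := countable_drop
    (v := fun z (q : ℕ × ℕ) => a z * (b z * a z ^ (q.1 + 2)) ^ (q.2 + 1))
    (fun q => diff_gen ha hb _ _) g3
  set K : Set ((Fin r → ℂ) × (Fin r → ℂ)) := Metric.sphere 0 1 ×ˢ Metric.sphere 0 1
  have hK : IsCompact K := (isCompact_sphere 0 1).prod (isCompact_sphere 0 1)
  have hev : ∀ᶠ z in 𝓝 z₀, ∀ p ∈ K,
      ∃ q : ℕ × ℕ, p.2 ⬝ᵥ ((a z * (b z * a z ^ (q.1 + 2)) ^ (q.2 + 1)) *ᵥ p.1) ≠ 0 := by
    refine hK.eventually_forall_of_forall_eventually fun p hp => ?_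
    obtain ⟨q, hq⟩ : ∃ q : ℕ × ℕ,
        p.2 ⬝ᵥ ((a z₀ * (b z₀ * a z₀ ^ (q.1 + 2)) ^ (q.2 + 1)) *ᵥ p.1) ≠ 0 := by
      by_contra! hall
      have hU : ∀ w ∈ U (a z₀) (b z₀), p.2 ⬝ᵥ (w *ᵥ p.1) = 0 := fun w hw => by
        induction hw using Submodule.span_induction with
        | mem w hw => obtain ⟨q, rfl⟩ := hw; exact hall q
        | zero => simp
        | add x y _ _ hx hy => rw [add_mulVec, dotProduct_add, hx, hy, add_zero]
        | smul c x _ hx => rw [smul_mulVec, dotProduct_smul, hx, smul_zero]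
      rcases g4 p.1 p.2 hU with h0 | h0
      · exact absurd (mem_sphere_zero_iff_norm.1 hp.1) (by simp [h0])
      · exact absurd (mem_sphere_zero_iff_norm.1 hp.2) (by simp [h0])
    have hc : Continuous fun zp : ℂ × ((Fin r → ℂ) × (Fin r → ℂ)) =>
        zp.2.2 ⬝ᵥ ((a zp.1 * (b zp.1 * a zp.1 ^ (q.1 + 2)) ^ (q.2 + 1)) *ᵥ zp.2.1) := by
      have := (diff_gen ha hb (q.1 + 2) (q.2 + 1)).continuous
      exact (continuous_snd.comp continuous_snd).dotProduct
        ((this.comp continuous_fst).matrix_mulVec (continuous_fst.comp continuous_snd))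
    exact (hc.continuousAt.eventually_ne (x := (z₀, p)) hq).mono fun zp hzp => ⟨q, hzp⟩
  refine ⟨_, hev, ((c1.union c2).union c3).mono ?_⟩
  rintro z ⟨hzW, hz⟩
  by_contra hh
  simp only [Set.mem_union, Set.mem_setOf_eq, not_or, not_lt] at hh
  refine hz ⟨hh.1.1, hh.1.2, hh.2, fun x y hxy => ?_⟩
  by_contra hne
  rw [not_or] at hne
  obtain ⟨q, hq⟩ := hzW ((‖x‖⁻¹ : ℂ) • x, (‖y‖⁻¹ : ℂ) • y)
    ⟨mem_sphere_zero_iff_norm.2 (norm_smul_inv_norm hne.1),
      mem_sphere_zero_iff_norm.2 (norm_smul_inv_norm hne.2)⟩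
  refine hq ?_
  simp only [mulVec_smul, smul_dotProduct, dotProduct_smul]
  rw [hxy _ (Submodule.subset_span ⟨q, rfl⟩)]
  simp

/-- A point of the family with both handles good and the first one irreducible. -/
theorem exists_good_point (hr : 2 ≤ r) (S : Seed R T) : ∃ t : Mat r, t.det = 1 ∧
    Good0 ((Dp S t).1 0).1 ((Dp S t).1 0).2 ∧ Good1 ((Dp S t).1 1).1 ((Dp S t).1 1).2 ∧
    Global.IrrPair ((Dp S t).1 0) := by
  obtain ⟨C, g, hC, -, hg, hgood⟩ := exists_good hr S.h_inj S.h_ne
  set A := C * diagonal g * C.adjugate with hA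
  have hg0 : ∀ i, g i ≠ 0 := fun i => Finset.prod_ne_zero_iff.1
    (show ∏ i, g i ≠ 0 by rw [hg]; exact one_ne_zero) i (Finset.mem_univ i)
  have hAd : A.det = 1 := by
    rw [hA, det_mul, det_mul, det_adj hC, hC, det_diagonal, hg, one_mul, one_mul]
  have hAa : A.adjugate = C * diagonal (fun i => (g i)⁻¹) * C.adjugate := by
    refine left_inv_eq_right_inv (adj_mul hAd) ?_
    calc A * (C * diagonal (fun i => (g i)⁻¹) * C.adjugate)
        = C * (diagonal g * (C.adjugate * C) * diagonal (fun i => (g i)⁻¹)) * C.adjugate := by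
          simp only [hA, mul_assoc]
      _ = 1 := by rw [adj_mul hC, mul_one, diagonal_mul_diagonal]; simp [hg0, mul_adj hC]
  obtain ⟨h00, h01⟩ := hgood g hg0
  obtain ⟨-, h11⟩ := hgood (fun i => (g i)⁻¹) fun i => inv_ne_zero (hg0 i)
  rw [← hA] at h00 h01
  rw [← hAa] at h11
  set t1 := A.adjugate * S.a with ht1
  have ht1d : t1.det = 1 := by rw [ht1, det_mul, det_adj hAd, S.a_det, one_mul]
  obtain ⟨c, hc, hcd, hc0, hc1⟩ := exists_curve ht1d hAd
  have hcd' : Differentiable ℂ c := hc.differentiable one_ne_zero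
  have hP : Differentiable ℂ fun z => (Dp S (c z)).1 :=
    (((PMap.fst).comp (pmap_Dp S)).contDiff.differentiable one_ne_zero).comp hcd'
  have hfst : ∀ i, Differentiable ℂ fun z => ((Dp S (c z)).1 i).1 := fun i =>
    ((differentiable_pi.1 hP i)).fst
  have hsnd : ∀ i, Differentiable ℂ fun z => ((Dp S (c z)).1 i).2 := fun i =>
    ((differentiable_pi.1 hP i)).snd
  -- the first handle at `z = 1`
  have eA : A.adjugate * A * A = A := by rw [adj_mul hAd, one_mul]
  have hz1 : Good0 ((Dp S (c 1)).1 0).1 ((Dp S (c 1)).1 0).2 ∧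
      r * r ≤ finrank ℂ (PP ((Dp S (c 1)).1 0).1 ((Dp S (c 1)).1 0).2) := by
    rw [hc1]
    have e2 : A.adjugate * A * A.adjugate.adjugate = A := by
      rw [adj_adj' hAd, eA]
    have e3 : A.adjugate * (diagonal S.h * A) * A.adjugate.adjugate =
        ((Dp S A).1 0).2 := by rw [adj_adj' hAd]; rfl
    refine ⟨?_, ?_⟩
    · have := good0_conj (det_adj hAd) h00
      rwa [e2, e3] at this
    · have := pp_conj (det_adj hAd) (pp_full hr h01)
      rwa [e2, e3] at this
  -- the second handle at `z = 0`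
  have hz0 : Good1 ((Dp S (c 0)).1 1).1 ((Dp S (c 0)).1 1).2 := by
    rw [hc0]
    have eb : S.b = S.a.adjugate * diagonal S.h := by
      rw [← S.mul_eq, ← mul_assoc, adj_mul S.a_det, one_mul]
    have e1 : S.a.adjugate * A * S.a.adjugate.adjugate = ((Dp S t1).1 1).1 := by
      show _ = t1.adjugate * S.a
      rw [adj_adj' S.a_det, ht1, adjugate_mul_distrib, adj_adj' hAd]
    have e2 : S.a.adjugate * (diagonal S.h * A.adjugate) * S.a.adjugate.adjugate =
        ((Dp S t1).1 1).2 := by
      show _ = S.b * t1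
      rw [adj_adj' S.a_det, eb, ht1]; simp only [mul_assoc]
    have := good1_conj (det_adj S.a_det) h11
    rwa [e1, e2] at this
  obtain ⟨W, hW, hWc⟩ := good1_near (hfst 1) (hsnd 1) hz0
  have hbad := (countable_good0 (hfst 0) (hsnd 0) hz1.1).union
    ((countable_pp (hfst 0) (hsnd 0) hz1.2).union hWc)
  obtain ⟨z, hzW, hz⟩ := (hbad.dense_compl ℂ).inter_nhds_nonempty hW
  simp only [Set.mem_compl_iff, Set.mem_union, Set.mem_setOf_eq, not_or, not_lt, not_and,
    not_not] at hzW hz
  exact ⟨c z, hcd z, hzW.1, hzW.2.2 hz, pp_irr hzW.2.1⟩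

end Vale.Agent.P002.Two
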