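import Vale.Agent.P002.Two.Family

/-! Twists inside a handle, slides between the two handles and slides over a boundary slot. -/

open Matrix

namespace Vale.Agent.P002.Two

open Vale.Agent.P002.Surface (Mat Tup comm rel PF PMap mul_adj adj_mul det_adj comm_twist_left
  comm_twist_right)
open Vale.Agent.P002.General (Sp YSp HomS IntS GoodX rel_two tailRel slX wd slX_spec wd_det slX_int
  wd_int adj_adj' adj_pow_mul slide_rel slid_int)
open Vale.Agent.P002.Twisted (IntMat IntTup)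

attribute [local instance] Matrix.linftyOpNormedAddCommGroup Matrix.linftyOpNormedSpace
  Matrix.linftyOpNormedRing Matrix.linftyOpNormedAlgebra

variable {r s : ℕ} {R : Subring ℂ} {J : Fin s → Mat r}

/-- A reversible substitution inside one handle preserving the commutator and integrality. -/
structure Sym (R : Subring ℂ) (r : ℕ) where
  f : Mat r × Mat r → Mat r × Mat r
  g : Mat r × Mat r → Mat r × Mat r
  pf : PMap f
  pg : PMap g
  f_ok : ∀ P : Mat r × Mat r, P.1.det = 1 → P.2.det = 1 →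
    (f P).1.det = 1 ∧ (f P).2.det = 1 ∧ comm (f P) = comm P ∧ g (f P) = P
  g_ok : ∀ P : Mat r × Mat r, P.1.det = 1 → P.2.det = 1 →
    (g P).1.det = 1 ∧ (g P).2.det = 1 ∧ comm (g P) = comm P
  f_int : ∀ P : Mat r × Mat r, IntMat R P.1 → IntMat R P.2 → IntMat R (f P).1 ∧ IntMat R (f P).2
  g_int : ∀ P : Mat r × Mat r, IntMat R P.1 → IntMat R P.2 → IntMat R (g P).1 ∧ IntMat R (g P).2

/-- The identity. -/
def idS (R : Subring ℂ) (r : ℕ) : Sym R r where
  f P := P
  g P := P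
  pf := PMap.id'
  pg := PMap.id'
  f_ok _ h1 h2 := ⟨h1, h2, rfl, rfl⟩
  g_ok _ h1 h2 := ⟨h1, h2, rfl⟩
  f_int _ h1 h2 := ⟨h1, h2⟩
  g_int _ h1 h2 := ⟨h1, h2⟩

/-- `(a,b) ↦ (a (b a^n)^m, b a^n)`. -/
def symS (R : Subring ℂ) (r n m : ℕ) : Sym R r where
  f P := (P.1 * (P.2 * P.1 ^ n) ^ m, P.2 * P.1 ^ n)
  g P := (P.1 * P.2.adjugate ^ m, P.2 * (P.1 * P.2.adjugate ^ m).adjugate ^ n)
  pf := by
    have h := (PMap.snd (T := Mat r)).mul ((PMap.fst (U := Mat r)).mpow n)
    exact (PMap.fst.mul (h.mpow m)).prodMk h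
  pg := by
    have h := (PMap.fst (U := Mat r)).mul ((PMap.snd (T := Mat r)).adjugate.mpow m)
    exact h.prodMk (PMap.snd.mul (h.adjugate.mpow n))
  f_ok P h1 h2 := by
    have hb : (P.2 * P.1 ^ n).det = 1 := by rw [det_mul, det_pow, h1, h2, one_pow, one_mul]
    have ha : (P.1 * (P.2 * P.1 ^ n) ^ m).det = 1 := by
      rw [det_mul, det_pow, hb, h1, one_pow, one_mul]
    refine ⟨ha, hb, ?_, ?_⟩
    · show comm (_, _) = comm (P.1, P.2)
      rw [comm_twist_left h1 hb (by rw [det_pow, hb, one_pow]) ((Commute.refl _).pow_left m),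
        comm_twist_right h1 h2 (by rw [det_pow, h1, one_pow]) ((Commute.refl _).pow_left n)]
    · have e : P.1 * (P.2 * P.1 ^ n) ^ m * (P.2 * P.1 ^ n).adjugate ^ m = P.1 := by
        rw [mul_assoc, (adj_pow_mul hb m).1, mul_one]
      refine Prod.ext e ?_
      show P.2 * P.1 ^ n * (P.1 * (P.2 * P.1 ^ n) ^ m * (P.2 * P.1 ^ n).adjugate ^ m).adjugate ^ n = _
      rw [e, mul_assoc, (adj_pow_mul h1 n).1, mul_one]
  g_ok P h1 h2 := by
    have hp : (P.2.adjugate ^ m).det = 1 := by rw [det_pow, det_adj h2, one_pow]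
    have ha : (P.1 * P.2.adjugate ^ m).det = 1 := by rw [det_mul, h1, hp, one_mul]
    have hq : ((P.1 * P.2.adjugate ^ m).adjugate ^ n).det = 1 := by
      rw [det_pow, det_adj ha, one_pow]
    refine ⟨ha, by rw [det_mul, h2, hq, one_mul], ?_⟩
    have c1 : Commute P.2.adjugate P.2 := (adj_mul h2).trans (mul_adj h2).symm
    have c2 : Commute (P.1 * P.2.adjugate ^ m).adjugate (P.1 * P.2.adjugate ^ m) :=
      (adj_mul ha).trans (mul_adj ha).symm
    show comm (_, _) = comm (P.1, P.2)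
    rw [comm_twist_right ha h2 hq (c2.pow_left n).eq,
      comm_twist_left h1 h2 hp (c1.pow_left m).eq]
  f_int P h1 h2 := ⟨h1.mul ((h2.mul (h1.pow n)).pow m), h2.mul (h1.pow n)⟩
  g_int P h1 h2 := ⟨h1.mul (h2.adjugate.pow m),
    h2.mul ((h1.mul (h2.adjugate.pow m)).adjugate.pow n)⟩

/-- `(a,b) ↦ (a (b a^n)^m, …)` followed by the quarter turn `(a,b) ↦ (a b a⁻¹, a⁻¹)`. -/
def symR (R : Subring ℂ) (r n m : ℕ) : Sym R r where
  f P := ((((symS R r n m).f P).1 * ((symS R r n m).f P).2 * ((symS R r n m).f P).1.adjugate),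
    ((symS R r n m).f P).1.adjugate)
  g P := (symS R r n m).g (P.2.adjugate, P.2 * P.1 * P.2.adjugate)
  pf := by
    have h := (symS R r n m).pf
    exact (((PMap.fst.comp h).mul (PMap.snd.comp h)).mul (PMap.fst.comp h).adjugate).prodMk
      (PMap.fst.comp h).adjugate
  pg := (symS R r n m).pg.comp (PMap.snd.adjugate.prodMk
    ((PMap.snd.mul PMap.fst).mul PMap.snd.adjugate))
  f_ok P h1 h2 := by
    obtain ⟨ha, hb, hc, hg⟩ := (symS R r n m).f_ok P h1 h2
    revert ha hb hc hg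
    generalize (symS R r n m).f P = Q
    intro ha hb hc hg
    refine ⟨by simp [det_mul, det_adj ha, ha, hb], det_adj ha, ?_, ?_⟩
    · rw [← hc]
      simp only [Surface.comm, adjugate_mul_distrib, adj_adj' ha, mul_assoc]
      rw [← mul_assoc Q.1.adjugate Q.1, adj_mul ha, one_mul]
      simp only [mul_one, adj_mul ha]
    · show (symS R r n m).g (Q.1.adjugate.adjugate,
        Q.1.adjugate * (Q.1 * Q.2 * Q.1.adjugate) * Q.1.adjugate.adjugate) = P
      rw [adj_adj' ha]
      simp only [mul_assoc, adj_mul ha, mul_one]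
      rw [← mul_assoc, adj_mul ha, one_mul]
      exact hg
  g_ok P h1 h2 := by
    have hb : (P.2 * P.1 * P.2.adjugate).det = 1 := by simp [det_mul, det_adj h2, h1, h2]
    obtain ⟨g1, g2, g3⟩ := (symS R r n m).g_ok (P.2.adjugate, P.2 * P.1 * P.2.adjugate)
      (det_adj h2) hb
    refine ⟨g1, g2, g3.trans ?_⟩
    simp only [Surface.comm, adjugate_mul_distrib, adj_adj' h2, mul_assoc]
    rw [← mul_assoc P.2.adjugate P.2, adj_mul h2, one_mul, ← mul_assoc P.2.adjugate P.2,
      adj_mul h2, one_mul]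
  f_int P h1 h2 := by
    obtain ⟨ha, hb⟩ := (symS R r n m).f_int P h1 h2
    exact ⟨(ha.mul hb).mul ha.adjugate, ha.adjugate⟩
  g_int P h1 h2 := (symS R r n m).g_int _ h2.adjugate ((h2.mul h1).mul h2.adjugate)

variable (σ : Sym R r × Sym R r)

/-- The substitutions applied to both handles. -/
def pre (x : Tup 2 r) : Tup 2 r := ![σ.1.f (x 0), σ.2.f (x 1)]

/-- The inverse of `pre`. -/
def post (x : Tup 2 r) : Tup 2 r := ![σ.1.g (x 0), σ.2.g (x 1)]

lemma two_eta (x : Tup 2 r) : ![x 0, x 1] = x := by funext i; fin_cases i <;> rfl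

lemma pre_spec {x : Tup 2 r} (hx : GoodX x) :
    GoodX (pre σ x) ∧ rel (pre σ x) = rel x ∧ post σ (pre σ x) = x := by
  obtain ⟨a1, a2, a3, a4⟩ := σ.1.f_ok _ (hx 0).1 (hx 0).2
  obtain ⟨b1, b2, b3, b4⟩ := σ.2.f_ok _ (hx 1).1 (hx 1).2
  refine ⟨Fin.forall_fin_two.2 ⟨⟨a1, a2⟩, ⟨b1, b2⟩⟩, ?_, ?_⟩
  · rw [rel_two, rel_two x]
    show comm (σ.1.f (x 0)) * comm (σ.2.f (x 1)) = _
    rw [a3, b3]
  · show ![σ.1.g (σ.1.f (x 0)), σ.2.g (σ.2.f (x 1))] = x
    rw [a4, b4, two_eta]

lemma post_spec {x : Tup 2 r} (hx : GoodX x) :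
    GoodX (post σ x) ∧ rel (post σ x) = rel x := by
  obtain ⟨a1, a2, a3⟩ := σ.1.g_ok _ (hx 0).1 (hx 0).2
  obtain ⟨b1, b2, b3⟩ := σ.2.g_ok _ (hx 1).1 (hx 1).2
  refine ⟨Fin.forall_fin_two.2 ⟨⟨a1, a2⟩, ⟨b1, b2⟩⟩, ?_⟩
  rw [rel_two, rel_two x]
  show comm (σ.1.g (x 0)) * comm (σ.2.g (x 1)) = _
  rw [a3, b3]

lemma pre_int {x : Tup 2 r} (hx : IntTup R x) : IntTup R (pre σ x) :=
  Fin.forall_fin_two.2 ⟨σ.1.f_int _ (hx 0).1 (hx 0).2, σ.2.f_int _ (hx 1).1 (hx 1).2⟩

lemma post_int {x : Tup 2 r} (hx : IntTup R x) : IntTup R (post σ x) :=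
  Fin.forall_fin_two.2 ⟨σ.1.g_int _ (hx 0).1 (hx 0).2, σ.2.g_int _ (hx 1).1 (hx 1).2⟩

lemma pmap_pre : PMap (fun x : Tup 2 r => pre σ x) :=
  General.PMap.two (σ.1.pf.comp (PMap.proj 0)) (σ.2.pf.comp (PMap.proj 1))

lemma pmap_post : PMap (fun x : Tup 2 r => post σ x) :=
  General.PMap.two (σ.1.pg.comp (PMap.proj 0)) (σ.2.pg.comp (PMap.proj 1))

/-- The slide between the handles, after substitutions. -/
def slideMv (J : Fin s → Mat r) : Mv J R 0 where
  word p := wd (pre σ p.1)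
  act p k k' := (post σ (slX (pre σ p.1) k k'), p.2)
  pword := General.PMap.wd.comp ((pmap_pre σ).comp PMap.fst)
  pact := ((pmap_post σ).comp (General.PMap.slX ((pmap_pre σ).comp (PMap.fst.comp PMap.fst))
    (PMap.fst.comp PMap.snd) (PMap.snd.comp PMap.snd))).prodMk (PMap.snd.comp PMap.fst)
  word_det p hp := wd_det (pre_spec σ hp.1).1
  word_int p hp := wd_int (pre_int σ hp.1)
  act_hom p hp k hk hc := by
    obtain ⟨h1, h2, -⟩ := pre_spec σ hp.1
    obtain ⟨g1, g2⟩ := slX_spec h1 hk hc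
    obtain ⟨f1, f2⟩ := post_spec σ g1
    exact ⟨f1, hp.2.1, by
      show rel (post σ (slX (pre σ p.1) k k.adjugate)) * _ = 1
      rw [f2, g2, h2]; exact hp.2.2⟩
  act_int p k k' hp hk hk' := ⟨post_int σ (slX_int (pre_int σ hp.1) hk hk'), hp.2⟩
  act_one p hp := by
    refine Prod.ext ?_ rfl
    show post σ (slX (pre σ p.1) 1 1) = p.1
    rw [show slX (pre σ p.1) 1 1 = pre σ p.1 by
      funext i; fin_cases i <;> simp [slX, pre]]
    exact (pre_spec σ hp.1).2.2

/-- Substitutions followed by the slide along its own word. -/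
def tauF (x : Tup 2 r) : Tup 2 r := slX (pre σ x) (wd (pre σ x)) (wd (pre σ x)).adjugate

/-- The inverse of `tauF`. -/
def tauG (x : Tup 2 r) : Tup 2 r := post σ (slX x (wd x).adjugate (wd x))

lemma wd_slX_self {z : Tup 2 r} (hz : GoodX z) :
    wd (slX z (wd z) (wd z).adjugate) = wd z ∧
      slX (slX z (wd z) (wd z).adjugate) (wd z).adjugate (wd z) = z := by
  set w := wd z with hw
  have hwd : w.det = 1 := wd_det hz
  refine ⟨?_, ?_⟩
  · show (w * (z 0).2 * w.adjugate).adjugate * (w * (z 1).1) * ((z 1).2 * w.adjugate) = w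
    rw [adjugate_mul_distrib, adjugate_mul_distrib, adj_adj' hwd]
    calc _ = w * (z 0).2.adjugate * (w.adjugate * w) * (z 1).1 * (z 1).2 * w.adjugate := by
          simp only [mul_assoc]
      _ = w * w * w.adjugate := by rw [adj_mul hwd, mul_one, hw, wd]; simp only [mul_assoc]
      _ = w := by rw [mul_assoc, mul_adj hwd, mul_one]
  · funext i
    refine Fin.cases ?_ (fun i => ?_) i
    · show ((z 0).1 * w.adjugate * w, w.adjugate * (w * (z 0).2 * w.adjugate) * w) = z 0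
      simp only [mul_assoc, adj_mul hwd, mul_one]
      simp only [← mul_assoc, adj_mul hwd, one_mul]
    · obtain rfl : i = 0 := Subsingleton.elim _ _
      show (w.adjugate * (w * (z 1).1), (z 1).2 * w.adjugate * w) = z 1
      simp only [mul_assoc, adj_mul hwd, mul_one]
      simp only [← mul_assoc, adj_mul hwd, one_mul]

lemma tauF_spec {x : Tup 2 r} (hx : GoodX x) :
    GoodX (tauF σ x) ∧ rel (tauF σ x) = rel x ∧ tauG σ (tauF σ x) = x := by
  obtain ⟨h1, h2, h3⟩ := pre_spec σ hx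
  obtain ⟨g1, g2⟩ := slX_spec h1 (wd_det h1) rfl
  obtain ⟨e1, e2⟩ := wd_slX_self h1
  refine ⟨g1, g2.trans h2, ?_⟩
  show post σ (slX (slX _ _ _) (wd (slX _ _ _)).adjugate (wd (slX _ _ _))) = x
  rw [e1, e2, h3]

lemma tauG_spec {x : Tup 2 r} (hx : GoodX x) :
    GoodX (tauG σ x) ∧ rel (tauG σ x) = rel x := by
  have hw := wd_det hx
  obtain ⟨g1, g2⟩ := slX_spec hx (det_adj hw) (by rw [adj_mul hw, mul_adj hw])
  rw [adj_adj' hw] at g1 g2
  obtain ⟨h1, h2⟩ := post_spec σ g1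
  exact ⟨h1, h2.trans g2⟩

lemma tauF_int {x : Tup 2 r} (hx : IntTup R x) : IntTup R (tauF σ x) :=
  slX_int (pre_int σ hx) (wd_int (pre_int σ hx)) (wd_int (pre_int σ hx)).adjugate

lemma tauG_int {x : Tup 2 r} (hx : IntTup R x) : IntTup R (tauG σ x) :=
  post_int σ (slX_int hx (wd_int hx).adjugate (wd_int hx))

lemma pmap_tauF : PMap (fun x : Tup 2 r => tauF σ x) :=
  General.PMap.slX (pmap_pre σ) (General.PMap.wd.comp (pmap_pre σ))
    (General.PMap.wd.comp (pmap_pre σ)).adjugate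

lemma pmap_tauG : PMap (fun x : Tup 2 r => tauG σ x) :=
  (pmap_post σ).comp (General.PMap.slX PMap.id' General.PMap.wd.adjugate General.PMap.wd)

/-- The slide over a boundary slot, after substitutions and a slide between the handles. -/
def tailMv (P : General.Piece R J 0) : Mv J R 0 where
  word p := (tauF σ p.1 1).2.adjugate * P.pre p.2 * P.mat p.2 * (P.pre p.2).adjugate
  act p k k' := (tauG σ ![tauF σ p.1 0, ((tauF σ p.1 1).1 * k', k * (tauF σ p.1 1).2 * k')],
    P.upd p.2 ((P.pre p.2).adjugate * k * P.pre p.2) ((P.pre p.2).adjugate * k' * P.pre p.2))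
  pword := ((((PMap.slot2 1).comp ((pmap_tauF σ).comp PMap.fst)).adjugate.mul
    (P.ppre.comp PMap.snd)).mul (P.pmat.comp PMap.snd)).mul (P.ppre.comp PMap.snd).adjugate
  pact := by
    have hx : PMap (fun t : Sp 0 s r × (Mat r × Mat r) => tauF σ t.1.1) :=
      (pmap_tauF σ).comp (PMap.fst.comp PMap.fst)
    have hk : PMap (fun t : Sp 0 s r × (Mat r × Mat r) => t.2.1) := PMap.fst.comp PMap.snd
    have hk' : PMap (fun t : Sp 0 s r × (Mat r × Mat r) => t.2.2) := PMap.snd.comp PMap.snd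
    have hy : PMap (fun t : Sp 0 s r × (Mat r × Mat r) => t.1.2) := PMap.snd.comp PMap.fst
    have hm := P.ppre.comp hy
    refine PMap.prodMk ((pmap_tauG σ).comp (General.PMap.two ((PMap.proj 0).comp hx)
      ((((PMap.slot1 1).comp hx).mul hk').prodMk ((hk.mul ((PMap.slot2 1).comp hx)).mul hk')))) ?_
    exact PMap.comp (φ := fun v : YSp 0 s r × (Mat r × Mat r) => P.upd v.1 v.2.1 v.2.2) P.pupd
      (hy.prodMk (((hm.adjugate.mul hk).mul hm).prodMk ((hm.adjugate.mul hk').mul hm)))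
  word_det p hp := by
    simp [det_mul, det_adj ((tauF_spec σ hp.1).1 1).2, det_adj (P.pre_det _ hp.2.1),
      P.pre_det _ hp.2.1, P.mat_det _ hp.2.1]
  word_int p hp :=
    (((tauF_int σ hp.1 1).2.adjugate.mul (P.pre_int _ hp.2)).mul (P.mat_int _ hp.2)).mul
      (P.pre_int _ hp.2).adjugate
  act_hom p hp k hk hc := by
    obtain ⟨h1, h2, -⟩ := tauF_spec σ hp.1
    have hMd : (P.pre p.2).det = 1 := P.pre_det _ hp.2.1
    have hKd : ((P.pre p.2).adjugate * k * P.pre p.2).det = 1 := by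
      simp [det_mul, det_adj hMd, hMd, hk]
    have hKa : ((P.pre p.2).adjugate * k * P.pre p.2).adjugate =
        (P.pre p.2).adjugate * k.adjugate * P.pre p.2 := by
      rw [adjugate_mul_distrib, adjugate_mul_distrib, adj_adj' hMd, mul_assoc]
    have hgood := P.upd_good _ hp.2.1 _ hKd
    rw [hKa] at hgood
    have hs := slide_rel (T := tailRel J p.2) h1 hk
      (fun a b ha hb h => P.slide a b ha hb p.2 hp.2.1 k hk h) hc
    obtain ⟨g1, g2⟩ := tauG_spec σ hs.1
    refine ⟨g1, hgood, ?_⟩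
    dsimp only
    rw [g2, hs.2, h2]
    exact hp.2.2
  act_int p k k' hp hk hk' := by
    have hz := tauF_int σ hp.1
    have hm := P.pre_int _ hp.2
    exact ⟨tauG_int σ (slid_int hz hk hk'),
      P.upd_int _ _ _ hp.2 ((hm.adjugate.mul hk).mul hm) ((hm.adjugate.mul hk').mul hm)⟩
  act_one p hp := by
    have hM := P.pre_det _ hp.2.1
    refine Prod.ext ?_ (by simp [adj_mul hM, P.upd_one])
    show tauG σ ![tauF σ p.1 0, ((tauF σ p.1 1).1 * 1, 1 * (tauF σ p.1 1).2 * 1)] = p.1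
    rw [mul_one, one_mul, mul_one, Prod.mk.eta, two_eta, (tauF_spec σ hp.1).2.2]

lemma rel_update {x : Tup 2 r} (i : Fin 2) {P : Mat r × Mat r} (hP : comm P = comm (x i)) :
    rel (Function.update x i P) = rel x := by
  rw [rel_two, rel_two x]
  fin_cases i <;> simp_all

lemma update_good {x : Tup 2 r} (hx : GoodX x) (i : Fin 2) {P : Mat r × Mat r} (h1 : P.1.det = 1)
    (h2 : P.2.det = 1) : GoodX (Function.update x i P) := by
  intro l
  by_cases h : l = i
  · subst h; simp [h1, h2]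
  · simp [h, hx l]

lemma update_int {x : Tup 2 r} (hx : IntTup R x) (i : Fin 2) {P : Mat r × Mat r}
    (h1 : IntMat R P.1) (h2 : IntMat R P.2) : IntTup R (Function.update x i P) := by
  intro l
  by_cases h : l = i
  · subst h; simp [h1, h2]
  · simpa [h] using hx l

lemma pmap_update {T : Type*} [NormedAddCommGroup T] [NormedSpace ℂ T] {φ : T → Tup 2 r}
    {P : T → Mat r × Mat r} (hφ : PMap φ) (hP : PMap P) (i : Fin 2) :
    PMap (fun t => Function.update (φ t) i (P t)) := by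
  refine PMap.pi fun l => ?_
  by_cases h : l = i
  · subst h; simpa using hP
  · simpa [h] using (PMap.proj l).comp hφ

/-- The twist along the first matrix of handle `i`. -/
def fstMv (R : Subring ℂ) (J : Fin s → Mat r) (i : Fin 2) : Mv J R 0 where
  word p := (p.1 i).1
  act p k _ := (Function.update p.1 i ((p.1 i).1, (p.1 i).2 * k), p.2)
  pword := (PMap.slot1 i).comp PMap.fst
  pact := (pmap_update (PMap.fst.comp PMap.fst) (((PMap.slot1 i).comp (PMap.fst.comp PMap.fst)).prodMk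
    (((PMap.slot2 i).comp (PMap.fst.comp PMap.fst)).mul (PMap.fst.comp PMap.snd))) i).prodMk
    (PMap.snd.comp PMap.fst)
  word_det p hp := (hp.1 i).1
  word_int p hp := (hp.1 i).1
  act_hom p hp k hk hc := ⟨update_good hp.1 i (hp.1 i).1 (by rw [det_mul, (hp.1 i).2, hk, one_mul]),
    hp.2.1, by
      show rel (Function.update p.1 i _) * _ = 1
      rw [rel_update i (comm_twist_right (hp.1 i).1 (hp.1 i).2 hk hc)]
      exact hp.2.2⟩
  act_int p k k' hp hk _ := ⟨update_int hp.1 i (hp.1 i).1 ((hp.1 i).2.mul hk), hp.2⟩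
  act_one p _ := by simp

/-- The twist along `b a^m` of handle `i`. -/
def sndMv (R : Subring ℂ) (J : Fin s → Mat r) (i : Fin 2) (m : ℕ) : Mv J R 0 where
  word p := (p.1 i).2 * (p.1 i).1 ^ m
  act p k k' := (Function.update p.1 i
    ((p.1 i).1 * k, (p.1 i).2 * (p.1 i).1 ^ m * (k' * (p.1 i).1.adjugate) ^ m), p.2)
  pword := ((PMap.slot2 i).comp PMap.fst).mul (((PMap.slot1 i).comp PMap.fst).mpow m)
  pact := by
    have ha : PMap (fun q : Sp 0 s r × (Mat r × Mat r) => (q.1.1 i).1) :=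
      (PMap.slot1 i).comp (PMap.fst.comp PMap.fst)
    have hb : PMap (fun q : Sp 0 s r × (Mat r × Mat r) => (q.1.1 i).2) :=
      (PMap.slot2 i).comp (PMap.fst.comp PMap.fst)
    exact (pmap_update (PMap.fst.comp PMap.fst) ((ha.mul (PMap.fst.comp PMap.snd)).prodMk
      ((hb.mul (ha.mpow m)).mul (((PMap.snd.comp PMap.snd).mul ha.adjugate).mpow m))) i).prodMk
      (PMap.snd.comp PMap.fst)
  word_det p hp := by simp [det_mul, det_pow, hp.1 i]
  word_int p hp := (hp.1 i).2.mul ((hp.1 i).1.pow m)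
  act_hom p hp k hk hc := by
    obtain ⟨ha, hb⟩ := hp.1 i
    have hbm : ((p.1 i).2 * (p.1 i).1 ^ m).det = 1 := by simp [det_mul, det_pow, ha, hb]
    have hak : ((p.1 i).1 * k).det = 1 := by rw [det_mul, ha, hk, one_mul]
    have hx : ((k.adjugate * (p.1 i).1.adjugate) ^ m).det = 1 := by
      simp [det_pow, det_mul, det_adj hk, det_adj ha]
    have c : Commute (k.adjugate * (p.1 i).1.adjugate) ((p.1 i).1 * k) := by
      rw [← adjugate_mul_distrib]; exact (adj_mul hak).trans (mul_adj hak).symm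
    refine ⟨update_good hp.1 i hak (by rw [det_mul, hbm, hx, one_mul]), hp.2.1, ?_⟩
    show rel (Function.update p.1 i _) * _ = 1
    rw [rel_update i (P := ((p.1 i).1 * k, _))]
    · exact hp.2.2
    · show comm (_, _) = comm ((p.1 i).1, (p.1 i).2)
      rw [comm_twist_right hak hbm hx (c.pow_left m).eq, comm_twist_left ha hbm hk hc,
        comm_twist_right ha hb (by rw [det_pow, ha, one_pow]) ((Commute.refl _).pow_left m)]
  act_int p k k' hp hk hk' := ⟨update_int hp.1 i ((hp.1 i).1.mul hk)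
    (((hp.1 i).2.mul ((hp.1 i).1.pow m)).mul ((hk'.mul (hp.1 i).1.adjugate).pow m)), hp.2⟩
  act_one p hp := by
    simp [mul_assoc, (adj_pow_mul (hp.1 i).1 m).1]

end Vale.Agent.P002.Two
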