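import Vale.Agent.P002.Two.Defs

/-! One handle: twist directions at a pair built from a conjugate of a regular semisimple matrix. -/

open Matrix Filter Topology

namespace Vale.Agent.P002.Two

open Vale.Agent.P002.Surface (Mat tlPow)

variable {r : ℕ}

/-- A sum to a power, as a sum over words. -/
lemma sum_pow_words {R : Type*} [Semiring R] (A : Fin r → R) :
    ∀ m : ℕ, (∑ k, A k) ^ m = ∑ f : Fin m → Fin r, (List.ofFn fun j => A (f j)).prod
  | 0 => by simp
  | m + 1 => by
    rw [pow_succ', sum_pow_words A m, Finset.sum_mul,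
      ← Equiv.sum_comp (Fin.consEquiv fun _ => Fin r), Fintype.sum_prod_type]
    refine Finset.sum_congr rfl fun k _ => ?_
    rw [Finset.mul_sum]
    exact Finset.sum_congr rfl fun f _ => by simp [List.ofFn_succ]

lemma list_prod_smul (c : ℕ → ℂ) (A : ℕ → Mat r) : ∀ m : ℕ,
    (List.ofFn fun j : Fin m => c j • A j).prod =
      (∏ j : Fin m, c j) • (List.ofFn fun j : Fin m => A j).prod := by
  intro m
  induction m generalizing c A with
  | zero => simp
  | succ m ih =>
    simp only [List.ofFn_succ, List.prod_cons, Fin.prod_univ_succ, Fin.val_succ, Fin.val_zero]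
    rw [ih (fun j => c (j + 1)) fun j => A (j + 1), Matrix.smul_mul, Matrix.mul_smul, smul_smul]

/-- The trace functional against a matrix. -/
noncomputable def trDual (r : ℕ) : Mat r →ₗ[ℂ] Module.Dual ℂ (Mat r) :=
  (LinearMap.mul ℂ (Mat r)).compr₂ (Matrix.traceLinearMap (Fin r) ℂ ℂ)

lemma trDual_apply (X Y : Mat r) : trDual r X Y = (X * Y).trace := rfl

lemma trDual_surjective : Function.Surjective (trDual r) := by
  intro ψ
  refine ⟨Matrix.of fun i j => ψ (Matrix.single j i 1), LinearMap.ext fun X => ?_⟩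
  rw [trDual_apply]
  conv_lhs => rw [matrix_eq_sum_single X]
  conv_rhs => rw [matrix_eq_sum_single X]
  simp only [Finset.mul_sum, trace_sum, map_sum]
  refine Finset.sum_congr rfl fun i _ => Finset.sum_congr rfl fun j _ => ?_
  rw [Matrix.trace_mul_single]
  show ψ (Matrix.single i j 1) * X i j = ψ (Matrix.single i j (X i j))
  rw [show Matrix.single i j (X i j) = X i j • Matrix.single i j (1 : ℂ) by
    rw [Matrix.smul_single, smul_eq_mul, mul_one], map_smul, smul_eq_mul, mul_comm]

/-- A lower bound for a dimension from an upper bound for the trace annihilator. -/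
lemma dim_lower (V K : Submodule ℂ (Mat r))
    (h : ∀ X : Mat r, (∀ Y ∈ V, (X * Y).trace = 0) → X ∈ K) :
    r * r ≤ Module.finrank ℂ V + Module.finrank ℂ K := by
  have hle : V.dualAnnihilator ≤ K.map (trDual r) := by
    intro ψ hψ
    obtain ⟨X, rfl⟩ := trDual_surjective ψ
    refine ⟨X, h X fun Y hY => ?_, rfl⟩
    exact (Submodule.mem_dualAnnihilator _).1 hψ Y hY
  have h1 := Subspace.finrank_add_finrank_dualAnnihilator_eq V
  have h2 := (Submodule.finrank_mono hle).trans (Submodule.finrank_map_le _ K)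
  have h3 : Module.finrank ℂ (Mat r) = r * r := by simp [Module.finrank_matrix]
  omega

lemma finrank_sup_one_le (V : Submodule ℂ (Mat r)) :
    Module.finrank ℂ ↥(V ⊔ Submodule.span ℂ {(1 : Mat r)}) ≤ Module.finrank ℂ V + 1 := by
  have h1 := Submodule.finrank_sup_add_finrank_inf_eq V (Submodule.span ℂ {(1 : Mat r)})
  have h2 : Module.finrank ℂ ↥(Submodule.span ℂ {(1 : Mat r)}) ≤ 1 := by
    simpa using finrank_span_le_card ({(1 : Mat r)} : Set (Mat r))
  omega

/-- Conjugates `M D` with arbitrary diagonal `D` are in the span of the twisted ones. -/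
lemma words_mem {g δ : Fin r → ℂ} (hg : Surface.Generic g) (hδ : ∀ i, δ i ≠ 0) (M : Mat r)
    (m : ℕ) (d : Fin r → ℂ) (V : Submodule ℂ (Mat r))
    (hV : ∀ q : ℕ, (M * diagonal (fun i => δ i * g i ^ (q + 2))) ^ m ∈ V) :
    (M * diagonal d) ^ m ∈ V := by
  classical
  by_contra hcon
  obtain ⟨ψ, hψ, hψV⟩ := Submodule.exists_dual_map_eq_bot_of_notMem hcon inferInstance
  have hker : ∀ u ∈ V, ψ u = 0 := fun u hu => by
    have : ψ u ∈ V.map ψ := Submodule.mem_map_of_mem hu
    rw [hψV] at this
    exact (Submodule.mem_bot _).1 this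
  let P : Fin r → Mat r := fun k => M * Matrix.single k k 1
  let c : (Fin m → Fin r) → ℂ := fun f => ψ (List.ofFn fun j => P (f j)).prod
  have hexp : ∀ x : Fin r → ℂ, ψ ((M * diagonal x) ^ m) = ∑ f, c f * ∏ j, x (f j) := fun x => by
    have e : M * diagonal x = ∑ k, x k • P k := by
      rw [← Matrix.sum_single_eq_diagonal x, Finset.mul_sum]
      refine Finset.sum_congr rfl fun k _ => ?_
      simp only [P]
      rw [← Matrix.mul_smul, Matrix.smul_single, smul_eq_mul, mul_one]
    rw [e, sum_pow_words, map_sum]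
    refine Finset.sum_congr rfl fun f _ => ?_
    have := list_prod_smul (fun j => if hj : j < m then x (f ⟨j, hj⟩) else 0)
      (fun j => if hj : j < m then P (f ⟨j, hj⟩) else 0) m
    simp only [Fin.is_lt, dite_true, Fin.eta] at this
    rw [this, map_smul, smul_eq_mul, mul_comm]
  refine hψ ?_
  have hne : ∀ i, δ i * g i ^ 2 ≠ 0 := fun i => mul_ne_zero (hδ i) (pow_ne_zero _ (hg.1 i))
  have hz := Surface.exp_sum_vanish Finset.univ (fun f => c f * ∏ j, (δ (f j) * g (f j) ^ 2))
    (fun f => ∏ j, g (f j)) (fun f => ∏ j, (d (f j) / (δ (f j) * g (f j) ^ 2))) (fun q => by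
      have := hker _ (hV q)
      rw [hexp] at this
      rw [← this]
      refine Finset.sum_congr rfl fun f _ => ?_
      rw [mul_assoc, ← Finset.prod_pow, ← Finset.prod_mul_distrib]
      congr 1
      exact Finset.prod_congr rfl fun j _ => by ring) fun f _ f' _ he => ?_
  · rw [hexp, ← hz]
    refine Finset.sum_congr rfl fun f _ => ?_
    rw [mul_assoc, ← Finset.prod_mul_distrib]
    congr 1
    exact Finset.prod_congr rfl fun j _ => by rw [mul_div_cancel₀ _ (hne _)]
  · let cnt : (Fin m → Fin r) → Fin r → ℕ := fun f i => (Finset.univ.filter fun j => f j = i).card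
    have hprod : ∀ (f : Fin m → Fin r) (x : Fin r → ℂ), ∏ j, x (f j) = ∏ i, x i ^ cnt f i :=
      fun f x => by
        rw [← Finset.prod_fiberwise Finset.univ f fun j => x (f j)]
        refine Finset.prod_congr rfl fun i _ => ?_
        rw [Finset.prod_congr rfl (g := fun _ => x i) fun j hj => by
          rw [(Finset.mem_filter.1 hj).2], Finset.prod_const]
    have hcnt : ∀ f : Fin m → Fin r, ∑ i, cnt f i = m := fun f => by
      simpa [cnt] using (Finset.card_eq_sum_card_fiberwise
        (s := (Finset.univ : Finset (Fin m))) (t := Finset.univ) (f := f) (by simp)).symm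
    rw [hprod, hprod] at he
    have hrel : ∀ i j, (cnt f i : ℤ) - cnt f' i = (cnt f j : ℤ) - cnt f' j := by
      refine hg.2.2 (fun i => (cnt f i : ℤ) - cnt f' i) ?_
      simp only [zpow_sub₀ (hg.1 _), zpow_natCast]
      rw [Finset.prod_div_distrib, he, div_self]
      exact Finset.prod_ne_zero_iff.2 fun i _ => pow_ne_zero _ (hg.1 i)
    have heq : ∀ i, cnt f i = cnt f' i := fun i => by
      have hs : ∑ j, ((cnt f j : ℤ) - cnt f' j) = 0 := by
        rw [Finset.sum_sub_distrib, ← Nat.cast_sum, ← Nat.cast_sum, hcnt, hcnt, sub_self]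
      rw [Finset.sum_congr rfl fun j _ => hrel j i, Finset.sum_const, Finset.card_univ,
        Fintype.card_fin, nsmul_eq_mul] at hs
      rcases mul_eq_zero.1 hs with h | h
      · have := i.isLt
        simp at h
        omega
      · omega
    have e1 := hprod f fun i => d i / (δ i * g i ^ 2)
    have e2 := hprod f' fun i => d i / (δ i * g i ^ 2)
    exact e1.trans ((Finset.prod_congr rfl fun i _ => by rw [heq i]).trans e2.symm)

/-- Conditions on the conjugated regular matrix. -/
structure Cond (g : Fin r → ℂ) (M N : Mat r) : Prop where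
  mn : M * N = 1
  nm : N * M = 1
  off : ∀ i k, i ≠ k → M i k ≠ 0
  tri : ∀ a b c, a ≠ b → b ≠ c → a ≠ c →
    M a b * M b c * M c a ≠ M a c * M c b * M b a
  cne : ∃ i, (g i)⁻¹ ≠ ∑ k, N i k * (g k)⁻¹ * M k i

/-- The parametrisation of the annihilator of the words of length at most three. -/
noncomputable def annMap (M N : Mat r) : (Fin r → ℂ) →ₗ[ℂ] Mat r :=
  Matrix.diagonalLinearMap (Fin r) ℂ ℂ -
    (LinearMap.mulRight ℂ N).comp ((LinearMap.mulLeft ℂ M).comp
      (Matrix.diagonalLinearMap (Fin r) ℂ ℂ))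

lemma annMap_apply (M N : Mat r) (p : Fin r → ℂ) :
    annMap M N p = diagonal p - M * diagonal p * N := rfl

lemma annihilator_words {g : Fin r → ℂ} {M N : Mat r} (hC : Cond g M N) (hr : 0 < r) {Ξ : Mat r}
    (hΞ : ∀ (m : ℕ) (d : Fin r → ℂ), 1 ≤ m → (Ξ * (M * diagonal d) ^ m).trace = 0) :
    ∃ p, annMap M N p = Ξ := by
  classical
  set Y := Ξ * M with hY
  let P : Fin r → Mat r := fun a => M * Matrix.single a a 1
  have hone : ∀ m, 1 ≤ m → ∀ d : Fin r → ℂ, (Ξ * (∑ a, d a • P a) ^ m).trace = 0 := fun m hm d => by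
    have e : M * diagonal d = ∑ a, d a • P a := by
      rw [← Matrix.sum_single_eq_diagonal d, Finset.mul_sum]
      refine Finset.sum_congr rfl fun k _ => ?_
      simp only [P]
      rw [← Matrix.mul_smul, Matrix.smul_single, smul_eq_mul, mul_one]
    rw [← e]; exact hΞ m d hm
  have hset : ∀ m, 1 ≤ m → ∀ s : Finset (Fin r), (Ξ * (∑ a ∈ s, P a) ^ m).trace = 0 := fun m hm s => by
    have := hone m hm fun a => if a ∈ s then 1 else 0
    simpa [ite_smul, Finset.sum_ite_mem] using this
  have t1 : ∀ a, (Ξ * P a).trace = Y a a := fun a => by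
    simp only [P, ← mul_assoc, ← hY, Matrix.trace_mul_single]; simp
  have t2 : ∀ a b, (Ξ * (P a * P b)).trace = Y b a * M a b := fun a b => by
    simp only [P]
    rw [show Ξ * (M * Matrix.single a a 1 * (M * Matrix.single b b 1)) =
      Y * (Matrix.single a a 1 * M * Matrix.single b b 1) by simp only [hY, mul_assoc],
      Matrix.single_mul_mul_single, Matrix.trace_mul_single]
    simp
  have t3 : ∀ a b c, (Ξ * (P a * P b * P c)).trace = Y c a * (M a b * M b c) := fun a b c => by
    simp only [P]
    rw [show Ξ * (M * Matrix.single a a 1 * (M * Matrix.single b b 1) * (M * Matrix.single c c 1)) =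
      Y * (Matrix.single a a 1 * M * Matrix.single b b 1 * M * Matrix.single c c 1) by
        simp only [hY, mul_assoc],
      Matrix.single_mul_mul_single, Matrix.single_mul_mul_single, Matrix.trace_mul_single]
    simp
  have hdiag : ∀ a, Y a a = 0 := fun a => by
    have := hset 1 le_rfl {a}
    rwa [Finset.sum_singleton, pow_one, t1] at this
  have hanti : ∀ a b, a ≠ b → Y b a * M a b + Y a b * M b a = 0 := fun a b hab => by
    have e : P a * P b + P b * P a = (P a + P b) ^ 2 - P a ^ 2 - P b ^ 2 := by noncomm_ring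
    have h0 := hset 2 (by norm_num) {a, b}
    have h1 := hset 2 (by norm_num) {a}
    have h2 := hset 2 (by norm_num) {b}
    rw [Finset.sum_pair hab] at h0
    rw [Finset.sum_singleton] at h1 h2
    have := congrArg (fun X => (Ξ * X).trace) e
    simpa [mul_add, mul_sub, trace_add, trace_sub, t2, h0, h1, h2] using this
  let y : Fin r → Fin r → ℂ := fun i k => Y i k / M i k
  have hy : ∀ i k, i ≠ k → Y i k = M i k * y i k := fun i k h => by
    simp only [y]; rw [mul_div_cancel₀ _ (hC.off i k h)]
  have hyanti : ∀ i k, i ≠ k → y k i = -y i k := fun i k h => by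
    have := hanti i k h
    rw [hy i k h, hy k i h.symm] at this
    have h' : M k i * M i k * (y k i + y i k) = 0 := by linear_combination this
    rcases mul_eq_zero.1 h' with e | e
    · exact absurd e (mul_ne_zero (hC.off k i h.symm) (hC.off i k h))
    · linear_combination e
  have hcyc : ∀ a b c, a ≠ b → b ≠ c → a ≠ c → y a b + y b c + y c a = 0 := fun a b c hab hbc hac => by
    have e : P a * P b * P c + P a * P c * P b + P b * P a * P c + P b * P c * P a + P c * P a * P b +
        P c * P b * P a = (P a + P b + P c) ^ 3 - (P a + P b) ^ 3 - (P a + P c) ^ 3 -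
          (P b + P c) ^ 3 + P a ^ 3 + P b ^ 3 + P c ^ 3 := by noncomm_ring
    have h0 := hset 3 (by norm_num) {a, b, c}
    have h1 := hset 3 (by norm_num) {a, b}
    have h2 := hset 3 (by norm_num) {a, c}
    have h3 := hset 3 (by norm_num) {b, c}
    have h4 := hset 3 (by norm_num) {a}
    have h5 := hset 3 (by norm_num) {b}
    have h6 := hset 3 (by norm_num) {c}
    rw [Finset.sum_insert (by simp [hab, hac]), Finset.sum_pair hbc, ← add_assoc] at h0
    rw [Finset.sum_pair hab] at h1
    rw [Finset.sum_pair hac] at h2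
    rw [Finset.sum_pair hbc] at h3
    rw [Finset.sum_singleton] at h4 h5 h6
    have := congrArg (fun X => (Ξ * X).trace) e
    simp only [mul_add, mul_sub, trace_add, trace_sub, t3, h0, h1, h2, h3, h4, h5, h6] at this
    rw [hy c a hac.symm, hy b a hab.symm, hy c b hbc.symm, hy a b hab, hy b c hbc, hy a c hac,
      hyanti a b hab, hyanti b c hbc, hyanti c a hac.symm] at this
    have h' : (M a b * M b c * M c a - M a c * M c b * M b a) * (y a b + y b c + y c a) = 0 := by
      linear_combination this
    exact (mul_eq_zero.1 h').resolve_left (sub_ne_zero.2 (hC.tri a b c hab hbc hac))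
  set o : Fin r := ⟨0, hr⟩
  let p : Fin r → ℂ := fun i => if i = o then 0 else y i o
  have hp : ∀ i k, i ≠ k → y i k = p i - p k := fun i k h => by
    simp only [p]
    by_cases hi : i = o <;> by_cases hk : k = o
    · exact absurd (hi.trans hk.symm) h
    · subst hi; rw [if_pos rfl, if_neg hk, hyanti k o hk, zero_sub]
    · subst hk; rw [if_neg hi, if_pos rfl, sub_zero]
    · rw [if_neg hi, if_neg hk]
      have := hcyc i k o h hk hi
      have h2 := hyanti i o hi
      linear_combination this - h2
  refine ⟨p, ?_⟩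
  have hYe : diagonal p * M - M * diagonal p = Y := by
    ext i k
    rw [Matrix.sub_apply, Matrix.diagonal_mul, Matrix.mul_diagonal]
    by_cases h : i = k
    · subst h; rw [hdiag]; ring
    · rw [hy i k h, hp i k h]; ring
  rw [annMap_apply]
  calc diagonal p - M * diagonal p * N = (diagonal p * M - M * diagonal p) * N := by
        rw [sub_mul, mul_assoc (diagonal p), hC.mn, mul_one]
    _ = Ξ := by rw [hYe, hY, mul_assoc, hC.mn, mul_one]

lemma finrank_map_lt {V W : Type*} [AddCommGroup V] [Module ℂ V] [AddCommGroup W] [Module ℂ W]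
    [FiniteDimensional ℂ V] (f : V →ₗ[ℂ] W) (K : Submodule ℂ V) {v : V} (hv : v ∈ K)
    (hv0 : v ≠ 0) (hf : f v = 0) : Module.finrank ℂ (K.map f) + 1 ≤ Module.finrank ℂ K := by
  have h1 := LinearMap.finrank_range_add_finrank_ker (f.domRestrict K)
  rw [LinearMap.range_domRestrict] at h1
  have h2 : 1 ≤ Module.finrank ℂ (LinearMap.ker (f.domRestrict K)) := by
    rw [Nat.one_le_iff_ne_zero]
    intro h
    rw [Submodule.finrank_eq_zero] at h
    have : (⟨v, hv⟩ : K) ∈ LinearMap.ker (f.domRestrict K) := hf
    rw [h, Submodule.mem_bot] at this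
    exact hv0 (congrArg Subtype.val this)
  omega

lemma sub_self_arith {a k : ℕ} (h : r * r + k ≤ a + r) : r * r - r + k ≤ a := by
  have := Nat.le_mul_self r
  omega

/-- The pair with diagonal first matrix is good. -/
lemma good_model {g δ : Fin r → ℂ} {M N : Mat r} (hr : 2 ≤ r) (hg : Surface.Generic g)
    (hginj : Function.Injective g) (hδ : ∀ i, δ i ≠ 0) (hC : Cond g M N) :
    Good0 (diagonal g) (M * diagonal δ) ∧ Good1 (diagonal g) (M * diagonal δ) := by
  classical
  set G : Mat r := diagonal g
  set Gi : Mat r := diagonal fun i => (g i)⁻¹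
  have hGG : G * Gi = 1 := by simp [G, Gi, diagonal_mul_diagonal, hg.1]
  have hGG' : Gi * G = 1 := by simp [G, Gi, diagonal_mul_diagonal, hg.1]
  set b : Mat r := M * diagonal δ
  set W := Submodule.span ℂ (Set.range fun q : ℕ × ℕ => (b * G ^ (q.1 + 2)) ^ (q.2 + 1))
  have hW : ∀ (m : ℕ) (d : Fin r → ℂ), 1 ≤ m → (M * diagonal d) ^ m ∈ W := fun m d hm => by
    refine words_mem hg hδ M m d W fun q => ?_
    refine Submodule.subset_span ⟨(q, m - 1), ?_⟩
    show (b * G ^ (q + 2)) ^ (m - 1 + 1) = _
    rw [Nat.sub_add_cancel hm, diagonal_pow, mul_assoc, diagonal_mul_diagonal]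
    rfl
  have hann : ∀ Ξ : Mat r, (∀ Y ∈ W, (Ξ * Y).trace = 0) → ∃ p, annMap M N p = Ξ := fun Ξ h =>
    annihilator_words hC (by omega) fun m d hm => h _ (hW m d hm)
  have hconst : annMap M N 1 = 0 := by
    have e : (diagonal (1 : Fin r → ℂ) : Mat r) = 1 := diagonal_one
    rw [annMap_apply, e, mul_one, hC.mn, sub_self]
  have h1ne : (1 : Fin r → ℂ) ≠ 0 := fun h => one_ne_zero (congrFun h ⟨0, by omega⟩)
  have hWdim : r * r + 1 ≤ Module.finrank ℂ W + r := by
    have h1 := dim_lower W (Submodule.map (annMap M N) ⊤) fun Ξ h => by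
      obtain ⟨p, hp⟩ := hann Ξ h
      exact ⟨p, trivial, hp⟩
    have h2 := finrank_map_lt (annMap M N) ⊤ (v := 1) trivial h1ne hconst
    rw [finrank_top, Module.finrank_fintype_fun_eq_card, Fintype.card_fin] at h2
    exact (Nat.add_le_add_right h1 1).trans ((Nat.add_assoc _ _ _).le.trans
      (Nat.add_le_add_left h2 _))
  have hU : U G b = W.map (LinearMap.mulLeft ℂ G) := by
    rw [U, Submodule.map_span, ← Set.range_comp]; rfl
  have hUdim : Module.finrank ℂ (U G b) = Module.finrank ℂ W := by
    rw [hU]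
    refine (Submodule.equivMapOfInjective _ (fun X Y h => ?_) W).finrank_eq.symm
    simpa [← mul_assoc, hGG'] using congrArg (Gi * ·) h
  have hUann : ∀ Ξ : Mat r, (∀ Y ∈ U G b, (Ξ * Y).trace = 0) →
      ∃ p, annMap M N p * Gi = Ξ := fun Ξ h => by
    obtain ⟨p, hp⟩ := hann (Ξ * G) fun Y hY => by
      rw [mul_assoc]; exact h _ (hU ▸ Submodule.mem_map_of_mem hY)
    exact ⟨p, by rw [hp, mul_assoc, hGG, mul_one]⟩
  have hPw : r - 1 ≤ Module.finrank ℂ (Pw G) := by
    have hle : Submodule.map (Matrix.diagonalLinearMap (Fin r) ℂ ℂ) ⊤ ≤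
        Pw G ⊔ Submodule.span ℂ {(1 : Mat r)} := by
      rintro _ ⟨d, -, rfl⟩
      show diagonal d ∈ _
      have hpow : ∀ m : ℕ, G ^ m ∈ Pw G ⊔ Submodule.span ℂ {(1 : Mat r)} := fun m => by
        rw [show G ^ m = tlPow m G + ((G ^ m).trace / (r : ℂ)) • (1 : Mat r) by simp [tlPow]]
        exact Submodule.add_mem_sup (Submodule.subset_span ⟨m, rfl⟩)
          (Submodule.smul_mem _ _ (Submodule.mem_span_singleton_self _))
      let p := Lagrange.interpolate Finset.univ g d
      have e : diagonal d = ∑ m ∈ Finset.range (p.natDegree + 1), p.coeff m • G ^ m := by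
        simp only [G, diagonal_pow, ← diagonal_smul]
        refine Eq.trans ?_ (map_sum (Matrix.diagonalLinearMap (Fin r) ℂ ℂ) _ _)
        show diagonal d = diagonal _
        congr 1
        funext i
        rw [← Lagrange.eval_interpolate_at_node d hginj.injOn (Finset.mem_univ i),
          Polynomial.eval_eq_sum_range, Finset.sum_apply]
        rfl
      rw [e]
      exact Submodule.sum_mem _ fun m _ => Submodule.smul_mem _ _ (hpow m)
    have h1 := Submodule.finrank_mono hle
    have h2 : Module.finrank ℂ (Submodule.map (Matrix.diagonalLinearMap (Fin r) ℂ ℂ) ⊤) = r := by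
      rw [← (Submodule.equivMapOfInjective _ Matrix.diagonal_injective ⊤).finrank_eq, finrank_top,
        Module.finrank_fintype_fun_eq_card, Fintype.card_fin]
    exact Nat.sub_le_iff_le_add.2 ((h2.ge.trans h1).trans (finrank_sup_one_le _))
  have hZ : r * r - r ≤ Module.finrank ℂ (Zs G b) := by
    have hle : W ≤ Zs G b ⊔ Submodule.span ℂ {(1 : Mat r)} := by
      refine Submodule.span_le.2 ?_
      rintro _ ⟨q, rfl⟩
      show (b * G ^ (q.1 + 2)) ^ (q.2 + 1) ∈ _
      rw [show (b * G ^ (q.1 + 2)) ^ (q.2 + 1) = tlPow (q.2 + 1) (b * G ^ (q.1 + 2)) +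
        (((b * G ^ (q.1 + 2)) ^ (q.2 + 1)).trace / (r : ℂ)) • (1 : Mat r) by simp [tlPow]]
      exact Submodule.add_mem_sup (Submodule.subset_span ⟨q, rfl⟩)
        (Submodule.smul_mem _ _ (Submodule.mem_span_singleton_self _))
    have h1 := Submodule.finrank_mono hle
    refine Nat.sub_le_iff_le_add.2 ?_
    have h2 : r * r + 1 ≤ Module.finrank ℂ (Zs G b) + 1 + r :=
      hWdim.trans (Nat.add_le_add_right (h1.trans (finrank_sup_one_le _)) r)
    omega
  have hU2 : r * r + 1 ≤ Module.finrank ℂ (U G b) + r := hWdim.trans_eq (by rw [hUdim])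
  refine ⟨⟨hPw, hZ, ?_⟩, hPw, hZ, sub_self_arith hU2, fun x y hxy => ?_⟩
  · -- one more equation
    let c : Fin r → ℂ := fun i => (g i)⁻¹ - ∑ k, N i k * (g k)⁻¹ * M k i
    have hc : ∀ p, (annMap M N p * Gi).trace = ∑ i, p i * c i := fun p => by
      rw [annMap_apply, sub_mul, trace_sub, mul_assoc (M * diagonal p), mul_assoc M, trace_mul_comm M]
      simp only [Gi, diagonal_mul_diagonal, trace_diagonal, c, mul_sub, Finset.sum_sub_distrib]
      congr 1
      refine Finset.sum_congr rfl fun i _ => ?_
      rw [Matrix.diag_apply, mul_assoc (diagonal p), Matrix.diagonal_mul, Matrix.mul_apply]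
      simp [Matrix.mul_diagonal]
    let φ : (Fin r → ℂ) →ₗ[ℂ] ℂ := ∑ i, c i • LinearMap.proj i
    have hφ : ∀ p, φ p = (annMap M N p * Gi).trace := fun p => by simp [φ, hc, mul_comm]
    let L := (LinearMap.mulRight ℂ Gi).comp (annMap M N)
    have h1 := dim_lower (U G b ⊔ Submodule.span ℂ {(1 : Mat r)}) ((LinearMap.ker φ).map L) fun Ξ h => by
      obtain ⟨p, hp⟩ := hUann Ξ fun Y hY => h Y (Submodule.mem_sup_left hY)
      refine ⟨p, ?_, hp⟩
      show φ p = 0
      rw [hφ, hp]
      simpa using h 1 (Submodule.mem_sup_right (Submodule.mem_span_singleton_self _))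
    have hone : (1 : Fin r → ℂ) ∈ LinearMap.ker φ := by
      show φ 1 = 0
      rw [hφ, hconst, zero_mul, trace_zero]
    have h2 := finrank_map_lt L (LinearMap.ker φ) hone h1ne (by simp [L, hconst])
    have h3 : Module.finrank ℂ (LinearMap.ker φ) + 1 ≤ r := by
      have hne : LinearMap.ker φ ≠ ⊤ := by
        intro htop
        obtain ⟨i, hi⟩ := hC.cne
        have : φ (Pi.single i 1) = 0 := LinearMap.mem_ker.1 (htop ▸ Submodule.mem_top)
        rw [hφ, hc] at this
        simp [Pi.single_apply, c, sub_eq_zero] at this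
        exact hi this
      have := Submodule.finrank_lt hne
      rw [Module.finrank_fintype_fun_eq_card, Fintype.card_fin] at this
      omega
    have h4 : r * r + 2 ≤ Module.finrank ℂ ↥(U G b ⊔ Submodule.span ℂ {(1 : Mat r)}) + r :=
      (Nat.add_le_add_right h1 2).trans ((Nat.add_assoc _ _ _).le.trans
        (Nat.add_le_add_left ((Nat.add_le_add_right h2 1).trans h3) _))
    exact sub_self_arith h4
  · -- no rank one annihilator
    by_contra hne
    push Not at hne
    obtain ⟨hx, hy⟩ := hne
    obtain ⟨p, hp⟩ := hUann (vecMulVec x y) fun Y hY => by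
      rw [Matrix.vecMulVec_mul, Matrix.trace_vecMulVec, dotProduct_comm,
        ← Matrix.dotProduct_mulVec]
      exact hxy Y hY
    set η := y ᵥ* (G * M)
    have he : diagonal p * M - M * diagonal p = vecMulVec x η := by
      rw [← Matrix.vecMulVec_mul, ← hp, annMap_apply]
      simp only [sub_mul, mul_assoc]
      rw [← mul_assoc Gi G M, hGG', one_mul, hC.nm, mul_one]
    have hη : η ≠ 0 := fun h => hy <| by
      have e : η ᵥ* (N * Gi) = y := by
        rw [Matrix.vecMul_vecMul, show G * M * (N * Gi) = 1 by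
          rw [mul_assoc, ← mul_assoc M, hC.mn, one_mul, hGG], Matrix.vecMul_one]
      rw [← e, h, Matrix.zero_vecMul]
    obtain ⟨i, hi⟩ := Function.ne_iff.1 hx
    obtain ⟨k, hk⟩ := Function.ne_iff.1 hη
    have hent : ∀ a l, (p a - p l) * M a l = x a * η l := fun a l => by
      have := congrFun (congrFun he a) l
      rw [Matrix.sub_apply, Matrix.diagonal_mul, Matrix.mul_diagonal, Matrix.vecMulVec_apply] at this
      linear_combination this
    have hxi : x i * η i = 0 := by rw [← hent]; ring
    have hηi : η i = 0 := (mul_eq_zero.1 hxi).resolve_left hi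
    have hik : i ≠ k := fun h => hk (h ▸ hηi)
    have h1 := hent k i
    rw [hηi, mul_zero] at h1
    have hpk := (mul_eq_zero.1 h1).resolve_right (hC.off k i hik.symm)
    have h2 := hent i k
    rw [show p i - p k = 0 by linear_combination -hpk, zero_mul] at h2
    exact mul_ne_zero hi hk h2.symm

/-! ### The choice of the conjugator -/

/-- The upper part of the direction. -/
noncomputable def upD (h : Fin r → ℂ) : Mat r :=
  Matrix.of fun i k => if i < k then (h i - h k)⁻¹ else 0

/-- The lower part of the direction. -/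
noncomputable def loD (h : Fin r → ℂ) (t : ℂ) : Mat r :=
  Matrix.of fun i k => if k < i then t * h i * h k / (h i - h k) else 0

/-- The conjugator. -/
noncomputable def conjS (h : Fin r → ℂ) (t ε : ℂ) : Mat r :=
  (1 + ε • upD h) * (1 + ε • loD h t)

lemma conjS_det (h : Fin r → ℂ) (t ε : ℂ) : (conjS h t ε).det = 1 := by
  rw [conjS, det_mul, det_of_isUpperTriangular, det_of_isLowerTriangular]
  · simp [upD, loD]
  · intro i j hij
    have h' : i < j := hij
    simp [loD, h'.ne, h'.not_gt]
  · intro i j hij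
    have h' : j < i := hij
    simp [upD, h'.ne', h'.not_gt]

/-- The first order term of the conjugate of `diagonal v`. -/
noncomputable def pert (h : Fin r → ℂ) (t : ℂ) (v : Fin r → ℂ) (ε : ℂ) : Mat r :=
  (conjS h t ε).adjugate * ((diagonal v * (upD h + loD h t) - (upD h + loD h t) * diagonal v) +
    ε • (diagonal v * (upD h * loD h t) - upD h * loD h t * diagonal v))

lemma conj_eq_pert (h : Fin r → ℂ) (t : ℂ) (v : Fin r → ℂ) (ε : ℂ) :
    (conjS h t ε).adjugate * diagonal v * conjS h t ε = diagonal v + ε • pert h t v ε := by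
  have e : diagonal v * conjS h t ε - conjS h t ε * diagonal v =
      ε • ((diagonal v * (upD h + loD h t) - (upD h + loD h t) * diagonal v) +
        ε • (diagonal v * (upD h * loD h t) - upD h * loD h t * diagonal v)) := by
    simp only [conjS, mul_add, add_mul, one_mul, mul_one, Matrix.smul_mul, Matrix.mul_smul,
      smul_smul, smul_add, smul_sub]
    abel
  rw [pert, ← Matrix.mul_smul, ← e, mul_sub, ← mul_assoc, ← mul_assoc, adjugate_mul, conjS_det,
    one_smul, one_mul]
  abel

lemma continuous_pert (h : Fin r → ℂ) (t : ℂ) (v : Fin r → ℂ) (i k : Fin r) :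
    Continuous fun ε => pert h t v ε i k := by
  have hc : Continuous fun ε => conjS h t ε := by unfold conjS; fun_prop
  have : Continuous fun ε => pert h t v ε := by
    unfold pert
    exact hc.matrix_adjugate.matrix_mul (by fun_prop)
  exact (continuous_apply k).comp ((continuous_apply i).comp this)

lemma pert_zero (h : Fin r → ℂ) (t : ℂ) (v : Fin r → ℂ) (i k : Fin r) :
    pert h t v 0 i k = (v i - v k) * (upD h + loD h t) i k := by
  simp [pert, conjS, Matrix.mul_diagonal, Matrix.diagonal_mul]
  ring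

/-- A conjugator satisfying the conditions. -/
lemma exists_cond {h g : Fin r → ℂ} (hr : 2 ≤ r) (hinj : Function.Injective h)
    (h0 : ∀ i, h i ≠ 0) (hginj : Function.Injective g) :
    ∃ S : Mat r, S.det = 1 ∧ Cond g (S.adjugate * diagonal h * S)
      (S.adjugate * diagonal (fun i => (h i)⁻¹) * S) := by
  classical
  obtain ⟨t, ht⟩ := Infinite.exists_notMem_finset
    (insert (0 : ℂ) (Finset.univ.image fun i => (h i ^ 2)⁻¹))
  simp only [Finset.mem_insert, Finset.mem_image, Finset.mem_univ, true_and, not_or,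
    not_exists] at ht
  obtain ⟨ht0, ht2⟩ := ht
  set E := pert h t h with hE
  set F := pert h t (fun i => (h i)⁻¹) with hF
  have hE0 : ∀ i k, E 0 i k = if i < k then 1 else if k < i then t * h i * h k else 0 := fun i k => by
    rw [hE, pert_zero]
    rcases lt_trichotomy i k with hik | rfl | hik
    · have : h i - h k ≠ 0 := sub_ne_zero.2 (hinj.ne hik.ne)
      simp [upD, loD, hik, hik.not_gt]
      field_simp
    · simp
    · have : h i - h k ≠ 0 := sub_ne_zero.2 (hinj.ne hik.ne')
      simp [upD, loD, hik, hik.not_gt]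
      field_simp
  have hoff : ∀ i k, i ≠ k → E 0 i k ≠ 0 := fun i k hik => by
    rw [hE0]
    rcases lt_or_gt_of_ne hik with e | e
    · simp [e]
    · simp [e, e.not_gt, ht0, h0]
  let D : ℂ → Fin r → Fin r → Fin r → ℂ := fun ε a b c =>
    E ε a b * E ε b c * E ε c a - E ε a c * E ε c b * E ε b a
  have hD : ∀ a b c, a ≠ b → b ≠ c → a ≠ c → D 0 a b c ≠ 0 := by
    have key : ∀ a b c, a < b → b < c → D 0 a b c ≠ 0 := fun a b c hab hbc e => by
      have hac := hab.trans hbc
      simp only [D, hE0, hab, hbc, hac, hab.not_gt, hbc.not_gt, hac.not_gt, if_true, if_false] at e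
      have e' : t * h c * h a * (1 - t * h b ^ 2) = 0 := by linear_combination e
      rcases mul_eq_zero.1 e' with e1 | e1
      · exact mul_ne_zero (mul_ne_zero ht0 (h0 c)) (h0 a) e1
      · refine ht2 b ?_
        have hb2 : h b ^ 2 ≠ 0 := pow_ne_zero _ (h0 b)
        rw [inv_eq_iff_eq_inv]
        exact (inv_eq_of_mul_eq_one_right (by linear_combination -e1)).symm
    intro a b c hab hbc hac e
    rcases lt_or_gt_of_ne hab with h1 | h1 <;> rcases lt_or_gt_of_ne hbc with h2 | h2 <;>
      rcases lt_or_gt_of_ne hac with h3 | h3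
    · exact key a b c h1 h2 e
    · exact absurd (h1.trans h2) h3.not_gt
    · exact key a c b h3 h2 (by simp only [D] at e ⊢; linear_combination -e)
    · exact key c a b h3 h1 (by simp only [D] at e ⊢; linear_combination e)
    · exact key b a c h1 h3 (by simp only [D] at e ⊢; linear_combination -e)
    · exact key b c a h2 h3 (by simp only [D] at e ⊢; linear_combination e)
    · exact absurd (h2.trans h1) h3.not_gt
    · exact key c b a h2 h1 (by simp only [D] at e ⊢; linear_combination -e)
  let Φ : ℂ → Fin r → ℂ := fun ε i => ∑ k, F ε i k * E ε k i * ((g k)⁻¹ - (g i)⁻¹)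
  have hΦ : ∀ i, Φ 0 i = -t * ∑ k, ((g k)⁻¹ - (g i)⁻¹) := fun i => by
    rw [Finset.mul_sum]
    refine Finset.sum_congr rfl fun k _ => ?_
    rw [hF, pert_zero, hE, pert_zero]
    rcases lt_trichotomy i k with hik | rfl | hik
    · have : h i - h k ≠ 0 := sub_ne_zero.2 (hinj.ne hik.ne)
      have : h k - h i ≠ 0 := sub_ne_zero.2 (hinj.ne hik.ne')
      have := h0 i
      have := h0 k
      simp [upD, loD, hik, hik.not_gt]
      field_simp
      ring
    · simp
    · have : h i - h k ≠ 0 := sub_ne_zero.2 (hinj.ne hik.ne')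
      have : h k - h i ≠ 0 := sub_ne_zero.2 (hinj.ne hik.ne)
      have := h0 i
      have := h0 k
      simp [upD, loD, hik, hik.not_gt]
      field_simp
      ring
  obtain ⟨i₀, hi₀⟩ : ∃ i, Φ 0 i ≠ 0 := by
    by_contra hall
    push Not at hall
    have he : ∀ i, ∑ k, ((g k)⁻¹ - (g i)⁻¹) = 0 := fun i => by
      have := hall i
      rw [hΦ] at this
      exact (mul_eq_zero.1 this).resolve_left (neg_ne_zero.2 ht0)
    have h1 := he ⟨0, by omega⟩
    have h2 := he ⟨1, by omega⟩
    simp only [Finset.sum_sub_distrib, Finset.sum_const, Finset.card_univ, Fintype.card_fin,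
      nsmul_eq_mul] at h1 h2
    have h3 : (r : ℂ) * ((g ⟨0, by omega⟩)⁻¹ - (g ⟨1, by omega⟩)⁻¹) = 0 := by
      linear_combination h2 - h1
    have h4 := (mul_eq_zero.1 h3).resolve_left (by simp; omega)
    have := hginj (inv_injective (sub_eq_zero.1 h4))
    simp [Fin.ext_iff] at this
  have hev : ∀ᶠ ε in 𝓝[≠] (0 : ℂ), (∀ i k, i ≠ k → E ε i k ≠ 0) ∧
      (∀ a b c, a ≠ b → b ≠ c → a ≠ c → D ε a b c ≠ 0) ∧ Φ ε i₀ ≠ 0 := by
    have cE : ∀ i k, Continuous fun ε => E ε i k := fun i k => continuous_pert h t h i k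
    have cF : ∀ i k, Continuous fun ε => F ε i k := fun i k => continuous_pert h t _ i k
    refine nhdsWithin_le_nhds ?_
    refine Eventually.and ?_ (Eventually.and ?_ ?_)
    · exact eventually_all.2 fun i => eventually_all.2 fun k => by
        by_cases hik : i = k
        · exact Eventually.of_forall fun _ e => absurd hik e
        · exact ((cE i k).continuousAt.eventually_ne (hoff i k hik)).mono fun _ e _ => e
    · exact eventually_all.2 fun a => eventually_all.2 fun b => eventually_all.2 fun c => by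
        by_cases hd : a ≠ b ∧ b ≠ c ∧ a ≠ c
        · have hc : Continuous fun ε => D ε a b c := by
            have := cE a b; have := cE b c; have := cE c a; have := cE a c; have := cE c b
            have := cE b a
            simp only [D]; fun_prop
          exact (hc.continuousAt.eventually_ne (hD a b c hd.1 hd.2.1 hd.2.2)).mono fun _ e _ _ _ => e
        · exact Eventually.of_forall fun _ e1 e2 e3 => absurd ⟨e1, e2, e3⟩ hd
    · exact (continuous_finsetSum _ fun k _ =>
        ((cF i₀ k).mul (cE k i₀)).mul continuous_const).continuousAt.eventually_ne hi₀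
  obtain ⟨ε, ⟨e1, e2, e3⟩, hε⟩ := (hev.and self_mem_nhdsWithin).exists
  have hε' : ε ≠ 0 := hε
  refine ⟨conjS h t ε, conjS_det h t ε, ?_⟩
  set S := conjS h t ε
  have hS : S * S.adjugate = 1 := by rw [mul_adjugate, conjS_det, one_smul]
  have hS' : S.adjugate * S = 1 := by rw [adjugate_mul, conjS_det, one_smul]
  have hcanc : ∀ u v : Fin r → ℂ, (∀ i, u i * v i = 1) →
      S.adjugate * diagonal u * S * (S.adjugate * diagonal v * S) = 1 := fun u v huv => by
    rw [show S.adjugate * diagonal u * S * (S.adjugate * diagonal v * S) =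
      S.adjugate * (diagonal u * (S * S.adjugate) * diagonal v) * S by simp only [mul_assoc],
      hS, mul_one, diagonal_mul_diagonal, show (fun i => u i * v i) = fun _ => (1 : ℂ) from
        funext huv, diagonal_one, mul_one, hS']
  have hM : ∀ i k, i ≠ k → (S.adjugate * diagonal h * S) i k = ε * E ε i k := fun i k hik => by
    rw [conj_eq_pert]; simp [hik, hE]
  have hN : ∀ i k, i ≠ k → (S.adjugate * diagonal (fun i => (h i)⁻¹) * S) i k = ε * F ε i k :=
    fun i k hik => by rw [conj_eq_pert]; simp [hik, hF]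
  refine ⟨hcanc _ _ fun i => mul_inv_cancel₀ (h0 i), hcanc _ _ fun i => inv_mul_cancel₀ (h0 i),
    fun i k hik => by rw [hM i k hik]; exact mul_ne_zero hε' (e1 i k hik),
    fun a b c hab hbc hac e => ?_, ⟨i₀, fun e => e3 ?_⟩⟩
  · rw [hM a b hab, hM b c hbc, hM c a hac.symm, hM a c hac, hM c b hbc.symm, hM b a hab.symm] at e
    refine e2 a b c hab hbc hac ?_
    have e' : ε ^ 3 * D ε a b c = 0 := by simp only [D]; linear_combination e
    exact (mul_eq_zero.1 e').resolve_left (pow_ne_zero _ hε')
  · set M := S.adjugate * diagonal h * S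
    set N := S.adjugate * diagonal (fun i => (h i)⁻¹) * S
    have hNM : ∑ k, N i₀ k * M k i₀ = 1 := by
      rw [← Matrix.mul_apply, hcanc _ _ fun i => inv_mul_cancel₀ (h0 i), one_apply_eq]
    have h1 : ∑ k, N i₀ k * M k i₀ * ((g k)⁻¹ - (g i₀)⁻¹) = 0 := by
      simp only [mul_sub, Finset.sum_sub_distrib, ← Finset.sum_mul, hNM, one_mul, sub_eq_zero]
      exact (Finset.sum_congr rfl fun k _ => by ring).trans e.symm
    have h2 : ε ^ 2 * Φ ε i₀ = 0 := by
      rw [← h1, Finset.mul_sum]
      refine Finset.sum_congr rfl fun k _ => ?_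
      by_cases hk : i₀ = k
      · subst hk; simp
      · rw [hN i₀ k hk, hM k i₀ (Ne.symm hk)]; ring
    exact (mul_eq_zero.1 h2).resolve_left (pow_ne_zero _ hε')

/-- Conjugation by a matrix of determinant one. -/
noncomputable def conjE (S : Mat r) (hS : S.det = 1) : Mat r ≃ₗ[ℂ] Mat r where
  toFun X := S * X * S.adjugate
  map_add' X Y := by rw [mul_add, add_mul]
  map_smul' c X := by rw [Matrix.mul_smul, Matrix.smul_mul]; rfl
  invFun X := S.adjugate * X * S
  left_inv X := by
    simp only [← mul_assoc, adjugate_mul, hS, one_smul, one_mul]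
    rw [mul_assoc, adjugate_mul, hS, one_smul, mul_one]
  right_inv X := by
    simp only [← mul_assoc, mul_adjugate, hS, one_smul, one_mul]
    rw [mul_assoc, mul_adjugate, hS, one_smul, mul_one]

lemma conjE_mul {S : Mat r} (hS : S.det = 1) (X Y : Mat r) :
    conjE S hS X * conjE S hS Y = conjE S hS (X * Y) := by
  show S * X * S.adjugate * (S * Y * S.adjugate) = S * (X * Y) * S.adjugate
  rw [show S * X * S.adjugate * (S * Y * S.adjugate) = S * X * (S.adjugate * S) * (Y * S.adjugate) by
    simp only [mul_assoc], adjugate_mul, hS, one_smul, mul_one]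
  simp only [mul_assoc]

lemma conjE_one {S : Mat r} (hS : S.det = 1) : conjE S hS 1 = 1 := by
  show S * 1 * S.adjugate = 1
  rw [mul_one, mul_adjugate, hS, one_smul]

lemma conjE_pow {S : Mat r} (hS : S.det = 1) (X : Mat r) :
    ∀ m : ℕ, conjE S hS X ^ m = conjE S hS (X ^ m)
  | 0 => by rw [pow_zero, pow_zero, conjE_one]
  | m + 1 => by rw [pow_succ, pow_succ, conjE_pow hS X m, conjE_mul]

lemma conjE_tlPow {S : Mat r} (hS : S.det = 1) (m : ℕ) (X : Mat r) :
    tlPow m (conjE S hS X) = conjE S hS (tlPow m X) := by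
  simp only [tlPow, conjE_pow, map_sub, map_smul, conjE_one]
  congr 3
  show (S * X ^ m * S.adjugate).trace = _
  rw [trace_mul_comm, ← mul_assoc, adjugate_mul, hS, one_smul, one_mul]

theorem exists_good (hr : 2 ≤ r) {h : Fin r → ℂ} (hinj : Function.Injective h) (h0 : ∀ i, h i ≠ 0) :
    ∃ (S : Mat r) (g : Fin r → ℂ), S.det = 1 ∧ Function.Injective g ∧ ∏ i, g i = 1 ∧
      ∀ δ : Fin r → ℂ, (∀ i, δ i ≠ 0) →
        Good0 (S * diagonal g * S.adjugate) (diagonal h * (S * diagonal δ * S.adjugate)) ∧
        Good1 (S * diagonal g * S.adjugate) (diagonal h * (S * diagonal δ * S.adjugate)) := by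
  obtain ⟨g, hg, hginj⟩ := Surface.exists_generic r
  obtain ⟨S, hS, hC⟩ := exists_cond hr hinj h0 (g := g) fun i j => hginj i j
  refine ⟨S, g, hS, fun i j => hginj i j, hg.2.1, fun δ hδ => ?_⟩
  set M := S.adjugate * diagonal h * S
  obtain ⟨⟨g1, g2, g3⟩, -, -, g4, g5⟩ := good_model hr hg (fun i j => hginj i j) hδ hC
  set e := conjE S hS
  have ha : S * diagonal g * S.adjugate = e (diagonal g) := rfl
  have hb : diagonal h * (S * diagonal δ * S.adjugate) = e (M * diagonal δ) := by
    show _ = S * (S.adjugate * diagonal h * S * diagonal δ) * S.adjugate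
    rw [show S * (S.adjugate * diagonal h * S * diagonal δ) * S.adjugate =
      S * S.adjugate * (diagonal h * (S * diagonal δ * S.adjugate)) by simp only [mul_assoc],
      mul_adjugate, hS, one_smul, one_mul]
  rw [ha, hb]
  have eP : Pw (e (diagonal g)) = (Pw (diagonal g)).map e.toLinearMap := by
    simp only [Pw, Submodule.map_span, ← Set.range_comp]
    refine congrArg _ (congrArg _ (funext fun m => ?_))
    exact conjE_tlPow hS m _
  have eZ : Zs (e (diagonal g)) (e (M * diagonal δ)) =
      (Zs (diagonal g) (M * diagonal δ)).map e.toLinearMap := by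
    simp only [Zs, Submodule.map_span, ← Set.range_comp]
    refine congrArg _ (congrArg _ (funext fun q => ?_))
    simp only [e, conjE_pow, conjE_mul, conjE_tlPow]
    rfl
  have eU : U (e (diagonal g)) (e (M * diagonal δ)) =
      (U (diagonal g) (M * diagonal δ)).map e.toLinearMap := by
    simp only [U, Submodule.map_span, ← Set.range_comp]
    refine congrArg _ (congrArg _ (funext fun q => ?_))
    simp only [e, conjE_pow, conjE_mul]
    rfl
  have e1 : Submodule.span ℂ {(1 : Mat r)} =
      (Submodule.span ℂ {(1 : Mat r)}).map e.toLinearMap := by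
    rw [Submodule.map_span, Set.image_singleton]
    exact congrArg (fun X : Mat r => Submodule.span ℂ {X}) (conjE_one hS).symm
  refine ⟨⟨?_, ?_, ?_⟩, ?_, ?_, ?_, fun x y hxy => ?_⟩
  · rwa [eP, LinearEquiv.finrank_map_eq]
  · rwa [eZ, LinearEquiv.finrank_map_eq]
  · rwa [eU, e1, ← Submodule.map_sup, LinearEquiv.finrank_map_eq]
  · rwa [eP, LinearEquiv.finrank_map_eq]
  · rwa [eZ, LinearEquiv.finrank_map_eq]
  · rwa [eU, LinearEquiv.finrank_map_eq]
  · have key := g5 (S.adjugate *ᵥ x) (y ᵥ* S) fun w hw => by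
      have := hxy (e w) (eU ▸ Submodule.mem_map_of_mem hw)
      rw [show e w = S * (w * S.adjugate) from mul_assoc _ _ _, ← mulVec_mulVec, ← mulVec_mulVec,
        dotProduct_mulVec] at this
      exact this
    rcases key with k | k
    · refine Or.inl ?_
      have := congrArg (S *ᵥ ·) k
      simpa [mulVec_mulVec, mul_adjugate, hS] using this
    · refine Or.inr ?_
      have := congrArg (· ᵥ* S.adjugate) k
      simpa [vecMul_vecMul, mul_adjugate, hS] using this

end Vale.Agent.P002.Two
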