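import Vale.Agent.P002.Two.Pt
import Vale.Agent.P002.Two.Defs

/-! The flows used for spanning are nice along the family. -/

open Matrix

namespace Vale.Agent.P002.Two

open Vale.Agent.P002.Surface (Mat mul_adj adj_mul det_adj)
open Vale.Agent.P002.General (adj_adj' exists_pow_mul_generic pow_conj)

attribute [local instance] Matrix.linftyOpNormedAddCommGroup Matrix.linftyOpNormedSpace
  Matrix.linftyOpNormedRing Matrix.linftyOpNormedAlgebra

variable {r s : ℕ} {R : Subring ℂ} {T : Fin s → Mat r}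

lemma GenM.conj {A C : Mat r} (hA : GenM A) (hC : C.det = 1) : GenM (C * A * C.adjugate) := by
  obtain ⟨lam, D, hl, hinj, hD, rfl⟩ := hA
  exact ⟨lam, C * D, hl, hinj, by rw [det_mul, hC, hD, one_mul], by
    simp only [adjugate_mul_distrib, mul_assoc]⟩

/-- The substitutions used on the two handles. -/
def sig (R : Subring ℂ) (r : ℕ) (q : (ℕ × ℕ) × (ℕ × ℕ)) : Sym R r × Sym R r :=
  (symR R r (q.1.1 + 2) (q.1.2 + 1), symS R r (q.2.1 + 2) q.2.2)

variable (S : Seed R T)

lemma fst_witness (i : Fin 2) : ∃ w ∈ closure (ptSet S), GenM ((fstMv R T i).word w) := by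
  obtain ⟨A, hA, hAd⟩ := exists_genM (r := r)
  refine Fin.cases ?_ (fun j => ?_) i
  · exact ⟨Dp S A, Dp_mem S hAd, by
      show GenM (Dp S A |>.1 0).1
      exact hA⟩
  · obtain rfl : j = 0 := Subsingleton.elim _ _
    set t := (A * S.a.adjugate).adjugate with ht
    have h1 : (A * S.a.adjugate).det = 1 := by rw [det_mul, hAd, det_adj S.a_det, one_mul]
    refine ⟨Dp S t, Dp_mem S (det_adj h1), ?_⟩
    show GenM (t.adjugate * S.a)
    rw [ht, adj_adj' h1, mul_assoc, adj_mul S.a_det, mul_one]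
    exact hA

lemma snd_witness (i : Fin 2) (n : ℕ) :
    ∃ w ∈ closure (ptSet S), GenM ((sndMv R T i (n + 2)).word w) := by
  refine Fin.cases ?_ (fun j => ?_) i
  · obtain ⟨A, hA, hAd⟩ := exists_genM (r := r)
    refine ⟨pt S A 0, subset_closure ⟨A, 0, hAd, rfl⟩, ?_⟩
    rw [pt_zero]
    show GenM (1 * A * 1 * (1 : Mat r) ^ (n + 2))
    rw [one_pow, mul_one, one_mul, mul_one]
    exact hA
  · obtain rfl : j = 0 := Subsingleton.elim _ _
    have hX : (S.b * S.a).det = 1 := by rw [det_mul, S.a_det, S.b_det, one_mul]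
    obtain ⟨lam, α, C, hl, hinj, hα, hC, he⟩ := exists_pow_mul_generic hX (e := n + 1) (by omega)
    have hA : GenM (α ^ (n + 1) * (S.b * S.a)) := ⟨lam, C, hl, hinj, hC, he⟩
    have h1 : (α * S.a.adjugate).det = 1 := by rw [det_mul, hα, det_adj S.a_det, one_mul]
    set t := (α * S.a.adjugate).adjugate with ht
    have htα : t.adjugate * S.a = α := by
      rw [ht, adj_adj' h1, mul_assoc, adj_mul S.a_det, mul_one]
    have htd : t.det = 1 := det_adj h1
    refine ⟨Dp S t, Dp_mem S htd, ?_⟩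
    show GenM (S.b * t * (t.adjugate * S.a) ^ (n + 2))
    have e : S.b * t * (t.adjugate * S.a) ^ (n + 2) =
        (α ^ (n + 1)).adjugate * (α ^ (n + 1) * (S.b * S.a)) * (α ^ (n + 1)).adjugate.adjugate := by
      have hp : (α ^ (n + 1)).det = 1 := by rw [det_pow, hα, one_pow]
      rw [adj_adj' hp, ← mul_assoc _ (α ^ (n + 1)), adj_mul hp, one_mul, pow_succ' _ (n + 1), htα]
      conv_lhs => rw [← htα]
      rw [htα, ← mul_assoc]
      congr 1
      rw [← htα, mul_assoc, ← mul_assoc t, mul_adj htd, one_mul]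
    rw [e]
    exact hA.conj (by rw [det_adjugate, det_pow, hα, one_pow, one_pow])

/-- The second matrix of the substituted first handle of a family point. -/
lemma pre_pt_zero {B : Mat r} (hB : B.det = 1) (q : (ℕ × ℕ) × (ℕ × ℕ)) :
    (pre (sig R r q) (pt S B 0).1 0).2.adjugate = B ^ (q.1.2 + 1) := by
  rw [pt_zero]
  show ((1 : Mat r) * (1 * B * 1 * (1 : Mat r) ^ (q.1.1 + 2)) ^ (q.1.2 + 1)).adjugate.adjugate = _
  rw [one_pow, mul_one, one_mul, mul_one, one_mul, adj_adj' (by rw [det_pow, hB, one_pow])]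

lemma slide_witness (q : (ℕ × ℕ) × (ℕ × ℕ)) :
    ∃ w ∈ closure (ptSet S), GenM ((slideMv (sig R r q) T).word w) := by
  set X := ((sig R r q).2.f (S.a, S.b)).1 * ((sig R r q).2.f (S.a, S.b)).2
  obtain ⟨hx1, hx2, -, -⟩ := (sig R r q).2.f_ok (S.a, S.b) S.a_det S.b_det
  have hX : X.det = 1 := by simp [X, det_mul, hx1, hx2]
  obtain ⟨lam, B, C, hl, hinj, hB, hC, he⟩ := exists_pow_mul_generic hX (e := q.1.2 + 1) (by omega)
  refine ⟨pt S B 0, subset_closure ⟨B, 0, hB, rfl⟩, lam, C, hl, hinj, hC, ?_⟩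
  rw [← he]
  show (pre (sig R r q) (pt S B 0).1 0).2.adjugate * (pre (sig R r q) (pt S B 0).1 1).1 *
    (pre (sig R r q) (pt S B 0).1 1).2 = _
  rw [pre_pt_zero S hB, mul_assoc, pt_zero]
  simp [X, pre, slid]

lemma tail_word (σ : Sym R r × Sym R r) (P : General.Piece R T 0) {p : General.Sp 0 s r}
    (hp : General.GoodX p.1) :
    (tailMv σ P).word p = (pre σ p.1 0).2.adjugate * (pre σ p.1 1).1 *
      (P.pre p.2 * P.mat p.2 * (P.pre p.2).adjugate) := by
  obtain ⟨h1, -, -⟩ := pre_spec σ hp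
  show ((pre σ p.1 1).2 * (General.wd (pre σ p.1)).adjugate).adjugate * _ * _ * _ = _
  rw [adjugate_mul_distrib, adj_adj' (General.wd_det h1), General.wd]
  have e : (pre σ p.1 0).2.adjugate * (pre σ p.1 1).1 * (pre σ p.1 1).2 *
      (pre σ p.1 1).2.adjugate = (pre σ p.1 0).2.adjugate * (pre σ p.1 1).1 := by
    rw [mul_assoc _ (pre σ p.1 1).2, mul_adj (h1 1).2, mul_one]
  rw [e]
  simp only [mul_assoc]

lemma tail_witness (q : (ℕ × ℕ) × (ℕ × ℕ)) (i : Fin s) :
    ∃ w ∈ closure (ptSet S), GenM ((tailMv (sig R r q) (General.pieceK R T S.T_ok i)).word w) := by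
  set P := General.pieceK (n := 0) R T S.T_ok i
  set c := ((sig R r q).2.f (S.a, S.b)).1
  obtain ⟨hx1, -, -, -⟩ := (sig R r q).2.f_ok (S.a, S.b) S.a_det S.b_det
  have hX : (c * (P.pre (y0 s r) * P.mat (y0 s r) * (P.pre (y0 s r)).adjugate)).det = 1 := by
    simp [c, det_mul, det_adj (P.pre_det _ y0_good), P.pre_det _ y0_good, P.mat_det _ y0_good, hx1]
  obtain ⟨lam, B, C, hl, hinj, hB, hC, he⟩ := exists_pow_mul_generic hX (e := q.1.2 + 1) (by omega)
  refine ⟨pt S B 0, subset_closure ⟨B, 0, hB, rfl⟩, lam, C, hl, hinj, hC, ?_⟩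
  rw [← he, tail_word _ _ (by rw [pt_zero]; exact (base_mem_hom S hB).1), pre_pt_zero S hB, pt_zero]
  simp [c, pre, slid, P, mul_assoc]

end Vale.Agent.P002.Two
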